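import Vale.Agent.P048.Sat.PSL6.Db0

namespace Vale.Agent.P048.Sat.PSL6

open Vale.Agent.P048.Sat Vale.Agent.P048.Sat.Turbo

noncomputable def s2_4 (i sh : Nat) : Nat := Bool.rec (Nat.shiftRight leaf2 sh) (Nat.shiftRight leaf3 sh) (Nat.ble 3 i)
noncomputable def s4_6 (i sh : Nat) : Nat := Bool.rec (Nat.shiftRight leaf4 sh) (Nat.shiftRight leaf5 sh) (Nat.ble 5 i)
noncomputable def s2_6 (i sh : Nat) : Nat := Bool.rec (s2_4 i sh) (s4_6 i sh) (Nat.ble 4 i)
noncomputable def s1_6 (i sh : Nat) : Nat := Bool.rec (Nat.shiftRight leaf1 sh) (s2_6 i sh) (Nat.ble 2 i)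
noncomputable def s7_9 (i sh : Nat) : Nat := Bool.rec (Nat.shiftRight leaf7 sh) (Nat.shiftRight leaf8 sh) (Nat.ble 8 i)
noncomputable def s6_9 (i sh : Nat) : Nat := Bool.rec (Nat.shiftRight leaf6 sh) (s7_9 i sh) (Nat.ble 7 i)
noncomputable def s9_11 (i sh : Nat) : Nat := Bool.rec (Nat.shiftRight leaf9 sh) (Nat.shiftRight leaf10 sh) (Nat.ble 10 i)
noncomputable def s12_14 (i sh : Nat) : Nat := Bool.rec (Nat.shiftRight leaf12 sh) (Nat.shiftRight leaf13 sh) (Nat.ble 13 i)
noncomputable def s11_14 (i sh : Nat) : Nat := Bool.rec (Nat.shiftRight leaf11 sh) (s12_14 i sh) (Nat.ble 12 i)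
noncomputable def s9_14 (i sh : Nat) : Nat := Bool.rec (s9_11 i sh) (s11_14 i sh) (Nat.ble 11 i)
noncomputable def s6_14 (i sh : Nat) : Nat := Bool.rec (s6_9 i sh) (s9_14 i sh) (Nat.ble 9 i)
noncomputable def s14_16 (i sh : Nat) : Nat := Bool.rec (Nat.shiftRight leaf14 sh) (Nat.shiftRight leaf15 sh) (Nat.ble 15 i)
noncomputable def s16_18 (i sh : Nat) : Nat := Bool.rec (Nat.shiftRight leaf16 sh) (Nat.shiftRight leaf17 sh) (Nat.ble 17 i)
noncomputable def s14_18 (i sh : Nat) : Nat := Bool.rec (s14_16 i sh) (s16_18 i sh) (Nat.ble 16 i)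
noncomputable def s18_20 (i sh : Nat) : Nat := Bool.rec (Nat.shiftRight leaf18 sh) (Nat.shiftRight leaf19 sh) (Nat.ble 19 i)
noncomputable def s21_23 (i sh : Nat) : Nat := Bool.rec (Nat.shiftRight leaf21 sh) (Nat.shiftRight leaf22 sh) (Nat.ble 22 i)
noncomputable def s20_23 (i sh : Nat) : Nat := Bool.rec (Nat.shiftRight leaf20 sh) (s21_23 i sh) (Nat.ble 21 i)
noncomputable def s18_23 (i sh : Nat) : Nat := Bool.rec (s18_20 i sh) (s20_23 i sh) (Nat.ble 20 i)
noncomputable def s14_23 (i sh : Nat) : Nat := Bool.rec (s14_18 i sh) (s18_23 i sh) (Nat.ble 18 i)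
noncomputable def s24_26 (i sh : Nat) : Nat := Bool.rec (Nat.shiftRight leaf24 sh) (Nat.shiftRight leaf25 sh) (Nat.ble 25 i)
noncomputable def s23_26 (i sh : Nat) : Nat := Bool.rec (Nat.shiftRight leaf23 sh) (s24_26 i sh) (Nat.ble 24 i)
noncomputable def s26_28 (i sh : Nat) : Nat := Bool.rec (Nat.shiftRight leaf26 sh) (Nat.shiftRight leaf27 sh) (Nat.ble 27 i)
noncomputable def s28_30 (i sh : Nat) : Nat := Bool.rec (Nat.shiftRight leaf28 sh) (Nat.shiftRight leaf29 sh) (Nat.ble 29 i)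
noncomputable def s26_30 (i sh : Nat) : Nat := Bool.rec (s26_28 i sh) (s28_30 i sh) (Nat.ble 28 i)
noncomputable def s23_30 (i sh : Nat) : Nat := Bool.rec (s23_26 i sh) (s26_30 i sh) (Nat.ble 26 i)
noncomputable def s30_32 (i sh : Nat) : Nat := Bool.rec (Nat.shiftRight leaf30 sh) (Nat.shiftRight leaf31 sh) (Nat.ble 31 i)
noncomputable def s33_35 (i sh : Nat) : Nat := Bool.rec (Nat.shiftRight leaf33 sh) (Nat.shiftRight leaf34 sh) (Nat.ble 34 i)
noncomputable def s32_35 (i sh : Nat) : Nat := Bool.rec (Nat.shiftRight leaf32 sh) (s33_35 i sh) (Nat.ble 33 i)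
noncomputable def s30_35 (i sh : Nat) : Nat := Bool.rec (s30_32 i sh) (s32_35 i sh) (Nat.ble 32 i)
noncomputable def s35_37 (i sh : Nat) : Nat := Bool.rec (Nat.shiftRight leaf35 sh) (Nat.shiftRight leaf36 sh) (Nat.ble 36 i)
noncomputable def s38_40 (i sh : Nat) : Nat := Bool.rec (Nat.shiftRight leaf38 sh) (Nat.shiftRight leaf39 sh) (Nat.ble 39 i)
noncomputable def s37_40 (i sh : Nat) : Nat := Bool.rec (Nat.shiftRight leaf37 sh) (s38_40 i sh) (Nat.ble 38 i)
noncomputable def s35_40 (i sh : Nat) : Nat := Bool.rec (s35_37 i sh) (s37_40 i sh) (Nat.ble 37 i)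
noncomputable def s30_40 (i sh : Nat) : Nat := Bool.rec (s30_35 i sh) (s35_40 i sh) (Nat.ble 35 i)
noncomputable def s23_40 (i sh : Nat) : Nat := Bool.rec (s23_30 i sh) (s30_40 i sh) (Nat.ble 30 i)
noncomputable def s14_40 (i sh : Nat) : Nat := Bool.rec (s14_23 i sh) (s23_40 i sh) (Nat.ble 23 i)
noncomputable def s6_40 (i sh : Nat) : Nat := Bool.rec (s6_14 i sh) (s14_40 i sh) (Nat.ble 14 i)
noncomputable def s1_40 (i sh : Nat) : Nat := Bool.rec (s1_6 i sh) (s6_40 i sh) (Nat.ble 6 i)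
noncomputable def s0_40 (i sh : Nat) : Nat := Bool.rec (Nat.shiftRight leaf0 sh) (s1_40 i sh) (Nat.ble 1 i)
noncomputable def s41_43 (i sh : Nat) : Nat := Bool.rec (Nat.shiftRight leaf41 sh) (Nat.shiftRight leaf42 sh) (Nat.ble 42 i)
noncomputable def s40_43 (i sh : Nat) : Nat := Bool.rec (Nat.shiftRight leaf40 sh) (s41_43 i sh) (Nat.ble 41 i)
noncomputable def s43_45 (i sh : Nat) : Nat := Bool.rec (Nat.shiftRight leaf43 sh) (Nat.shiftRight leaf44 sh) (Nat.ble 44 i)
noncomputable def s45_47 (i sh : Nat) : Nat := Bool.rec (Nat.shiftRight leaf45 sh) (Nat.shiftRight leaf46 sh) (Nat.ble 46 i)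
noncomputable def s43_47 (i sh : Nat) : Nat := Bool.rec (s43_45 i sh) (s45_47 i sh) (Nat.ble 45 i)
noncomputable def s40_47 (i sh : Nat) : Nat := Bool.rec (s40_43 i sh) (s43_47 i sh) (Nat.ble 43 i)
noncomputable def s47_49 (i sh : Nat) : Nat := Bool.rec (Nat.shiftRight leaf47 sh) (Nat.shiftRight leaf48 sh) (Nat.ble 48 i)
noncomputable def s49_51 (i sh : Nat) : Nat := Bool.rec (Nat.shiftRight leaf49 sh) (Nat.shiftRight leaf50 sh) (Nat.ble 50 i)
noncomputable def s47_51 (i sh : Nat) : Nat := Bool.rec (s47_49 i sh) (s49_51 i sh) (Nat.ble 49 i)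
noncomputable def s51_53 (i sh : Nat) : Nat := Bool.rec (Nat.shiftRight leaf51 sh) (Nat.shiftRight leaf52 sh) (Nat.ble 52 i)
noncomputable def s54_56 (i sh : Nat) : Nat := Bool.rec (Nat.shiftRight leaf54 sh) (Nat.shiftRight leaf55 sh) (Nat.ble 55 i)
noncomputable def s53_56 (i sh : Nat) : Nat := Bool.rec (Nat.shiftRight leaf53 sh) (s54_56 i sh) (Nat.ble 54 i)
noncomputable def s51_56 (i sh : Nat) : Nat := Bool.rec (s51_53 i sh) (s53_56 i sh) (Nat.ble 53 i)
noncomputable def s47_56 (i sh : Nat) : Nat := Bool.rec (s47_51 i sh) (s51_56 i sh) (Nat.ble 51 i)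
noncomputable def s40_56 (i sh : Nat) : Nat := Bool.rec (s40_47 i sh) (s47_56 i sh) (Nat.ble 47 i)
noncomputable def s56_58 (i sh : Nat) : Nat := Bool.rec (Nat.shiftRight leaf56 sh) (Nat.shiftRight leaf57 sh) (Nat.ble 57 i)
noncomputable def s59_61 (i sh : Nat) : Nat := Bool.rec (Nat.shiftRight leaf59 sh) (Nat.shiftRight leaf60 sh) (Nat.ble 60 i)
noncomputable def s58_61 (i sh : Nat) : Nat := Bool.rec (Nat.shiftRight leaf58 sh) (s59_61 i sh) (Nat.ble 59 i)
noncomputable def s56_61 (i sh : Nat) : Nat := Bool.rec (s56_58 i sh) (s58_61 i sh) (Nat.ble 58 i)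
noncomputable def s62_64 (i sh : Nat) : Nat := Bool.rec (Nat.shiftRight leaf62 sh) (Nat.shiftRight leaf63 sh) (Nat.ble 63 i)
noncomputable def s61_64 (i sh : Nat) : Nat := Bool.rec (Nat.shiftRight leaf61 sh) (s62_64 i sh) (Nat.ble 62 i)
noncomputable def s65_67 (i sh : Nat) : Nat := Bool.rec (Nat.shiftRight leaf65 sh) (Nat.shiftRight leaf66 sh) (Nat.ble 66 i)
noncomputable def s64_67 (i sh : Nat) : Nat := Bool.rec (Nat.shiftRight leaf64 sh) (s65_67 i sh) (Nat.ble 65 i)
noncomputable def s61_67 (i sh : Nat) : Nat := Bool.rec (s61_64 i sh) (s64_67 i sh) (Nat.ble 64 i)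
noncomputable def s56_67 (i sh : Nat) : Nat := Bool.rec (s56_61 i sh) (s61_67 i sh) (Nat.ble 61 i)
noncomputable def s68_70 (i sh : Nat) : Nat := Bool.rec (Nat.shiftRight leaf68 sh) (Nat.shiftRight leaf69 sh) (Nat.ble 69 i)
noncomputable def s67_70 (i sh : Nat) : Nat := Bool.rec (Nat.shiftRight leaf67 sh) (s68_70 i sh) (Nat.ble 68 i)
noncomputable def s71_73 (i sh : Nat) : Nat := Bool.rec (Nat.shiftRight leaf71 sh) (Nat.shiftRight leaf72 sh) (Nat.ble 72 i)
noncomputable def s70_73 (i sh : Nat) : Nat := Bool.rec (Nat.shiftRight leaf70 sh) (s71_73 i sh) (Nat.ble 71 i)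
noncomputable def s67_73 (i sh : Nat) : Nat := Bool.rec (s67_70 i sh) (s70_73 i sh) (Nat.ble 70 i)
noncomputable def s74_76 (i sh : Nat) : Nat := Bool.rec (Nat.shiftRight leaf74 sh) (Nat.shiftRight leaf75 sh) (Nat.ble 75 i)
noncomputable def s73_76 (i sh : Nat) : Nat := Bool.rec (Nat.shiftRight leaf73 sh) (s74_76 i sh) (Nat.ble 74 i)
noncomputable def s76_78 (i sh : Nat) : Nat := Bool.rec (Nat.shiftRight leaf76 sh) (Nat.shiftRight leaf77 sh) (Nat.ble 77 i)
noncomputable def s78_80 (i sh : Nat) : Nat := Bool.rec (Nat.shiftRight leaf78 sh) (Nat.shiftRight leaf79 sh) (Nat.ble 79 i)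
noncomputable def s76_80 (i sh : Nat) : Nat := Bool.rec (s76_78 i sh) (s78_80 i sh) (Nat.ble 78 i)
noncomputable def s73_80 (i sh : Nat) : Nat := Bool.rec (s73_76 i sh) (s76_80 i sh) (Nat.ble 76 i)
noncomputable def s67_80 (i sh : Nat) : Nat := Bool.rec (s67_73 i sh) (s73_80 i sh) (Nat.ble 73 i)
noncomputable def s56_80 (i sh : Nat) : Nat := Bool.rec (s56_67 i sh) (s67_80 i sh) (Nat.ble 67 i)
noncomputable def s40_80 (i sh : Nat) : Nat := Bool.rec (s40_56 i sh) (s56_80 i sh) (Nat.ble 56 i)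
noncomputable def s80_82 (i sh : Nat) : Nat := Bool.rec (Nat.shiftRight leaf80 sh) (Nat.shiftRight leaf81 sh) (Nat.ble 81 i)
noncomputable def s82_84 (i sh : Nat) : Nat := Bool.rec (Nat.shiftRight leaf82 sh) (Nat.shiftRight leaf83 sh) (Nat.ble 83 i)
noncomputable def s80_84 (i sh : Nat) : Nat := Bool.rec (s80_82 i sh) (s82_84 i sh) (Nat.ble 82 i)
noncomputable def s84_86 (i sh : Nat) : Nat := Bool.rec (Nat.shiftRight leaf84 sh) (Nat.shiftRight leaf85 sh) (Nat.ble 85 i)
noncomputable def s87_89 (i sh : Nat) : Nat := Bool.rec (Nat.shiftRight leaf87 sh) (Nat.shiftRight leaf88 sh) (Nat.ble 88 i)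
noncomputable def s86_89 (i sh : Nat) : Nat := Bool.rec (Nat.shiftRight leaf86 sh) (s87_89 i sh) (Nat.ble 87 i)
noncomputable def s84_89 (i sh : Nat) : Nat := Bool.rec (s84_86 i sh) (s86_89 i sh) (Nat.ble 86 i)
noncomputable def s80_89 (i sh : Nat) : Nat := Bool.rec (s80_84 i sh) (s84_89 i sh) (Nat.ble 84 i)
noncomputable def s89_91 (i sh : Nat) : Nat := Bool.rec (Nat.shiftRight leaf89 sh) (Nat.shiftRight leaf90 sh) (Nat.ble 90 i)
noncomputable def s92_94 (i sh : Nat) : Nat := Bool.rec (Nat.shiftRight leaf92 sh) (Nat.shiftRight leaf93 sh) (Nat.ble 93 i)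
noncomputable def s91_94 (i sh : Nat) : Nat := Bool.rec (Nat.shiftRight leaf91 sh) (s92_94 i sh) (Nat.ble 92 i)
noncomputable def s89_94 (i sh : Nat) : Nat := Bool.rec (s89_91 i sh) (s91_94 i sh) (Nat.ble 91 i)
noncomputable def s94_96 (i sh : Nat) : Nat := Bool.rec (Nat.shiftRight leaf94 sh) (Nat.shiftRight leaf95 sh) (Nat.ble 95 i)
noncomputable def s97_99 (i sh : Nat) : Nat := Bool.rec (Nat.shiftRight leaf97 sh) (Nat.shiftRight leaf98 sh) (Nat.ble 98 i)
noncomputable def s96_99 (i sh : Nat) : Nat := Bool.rec (Nat.shiftRight leaf96 sh) (s97_99 i sh) (Nat.ble 97 i)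
noncomputable def s94_99 (i sh : Nat) : Nat := Bool.rec (s94_96 i sh) (s96_99 i sh) (Nat.ble 96 i)
noncomputable def s89_99 (i sh : Nat) : Nat := Bool.rec (s89_94 i sh) (s94_99 i sh) (Nat.ble 94 i)
noncomputable def s80_99 (i sh : Nat) : Nat := Bool.rec (s80_89 i sh) (s89_99 i sh) (Nat.ble 89 i)
noncomputable def s99_101 (i sh : Nat) : Nat := Bool.rec (Nat.shiftRight leaf99 sh) (Nat.shiftRight leaf100 sh) (Nat.ble 100 i)
noncomputable def s102_104 (i sh : Nat) : Nat := Bool.rec (Nat.shiftRight leaf102 sh) (Nat.shiftRight leaf103 sh) (Nat.ble 103 i)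
noncomputable def s101_104 (i sh : Nat) : Nat := Bool.rec (Nat.shiftRight leaf101 sh) (s102_104 i sh) (Nat.ble 102 i)
noncomputable def s99_104 (i sh : Nat) : Nat := Bool.rec (s99_101 i sh) (s101_104 i sh) (Nat.ble 101 i)
noncomputable def s104_106 (i sh : Nat) : Nat := Bool.rec (Nat.shiftRight leaf104 sh) (Nat.shiftRight leaf105 sh) (Nat.ble 105 i)
noncomputable def s107_109 (i sh : Nat) : Nat := Bool.rec (Nat.shiftRight leaf107 sh) (Nat.shiftRight leaf108 sh) (Nat.ble 108 i)
noncomputable def s106_109 (i sh : Nat) : Nat := Bool.rec (Nat.shiftRight leaf106 sh) (s107_109 i sh) (Nat.ble 107 i)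
noncomputable def s104_109 (i sh : Nat) : Nat := Bool.rec (s104_106 i sh) (s106_109 i sh) (Nat.ble 106 i)
noncomputable def s99_109 (i sh : Nat) : Nat := Bool.rec (s99_104 i sh) (s104_109 i sh) (Nat.ble 104 i)
noncomputable def s109_111 (i sh : Nat) : Nat := Bool.rec (Nat.shiftRight leaf109 sh) (Nat.shiftRight leaf110 sh) (Nat.ble 110 i)
noncomputable def s112_114 (i sh : Nat) : Nat := Bool.rec (Nat.shiftRight leaf112 sh) (Nat.shiftRight leaf113 sh) (Nat.ble 113 i)
noncomputable def s111_114 (i sh : Nat) : Nat := Bool.rec (Nat.shiftRight leaf111 sh) (s112_114 i sh) (Nat.ble 112 i)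
noncomputable def s109_114 (i sh : Nat) : Nat := Bool.rec (s109_111 i sh) (s111_114 i sh) (Nat.ble 111 i)
noncomputable def s115_117 (i sh : Nat) : Nat := Bool.rec (Nat.shiftRight leaf115 sh) (Nat.shiftRight leaf116 sh) (Nat.ble 116 i)
noncomputable def s114_117 (i sh : Nat) : Nat := Bool.rec (Nat.shiftRight leaf114 sh) (s115_117 i sh) (Nat.ble 115 i)
noncomputable def s117_119 (i sh : Nat) : Nat := Bool.rec (Nat.shiftRight leaf117 sh) (Nat.shiftRight leaf118 sh) (Nat.ble 118 i)
noncomputable def s119_121 (i sh : Nat) : Nat := Bool.rec (Nat.shiftRight leaf119 sh) (Nat.shiftRight leaf120 sh) (Nat.ble 120 i)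
noncomputable def s117_121 (i sh : Nat) : Nat := Bool.rec (s117_119 i sh) (s119_121 i sh) (Nat.ble 119 i)
noncomputable def s114_121 (i sh : Nat) : Nat := Bool.rec (s114_117 i sh) (s117_121 i sh) (Nat.ble 117 i)
noncomputable def s109_121 (i sh : Nat) : Nat := Bool.rec (s109_114 i sh) (s114_121 i sh) (Nat.ble 114 i)
noncomputable def s99_121 (i sh : Nat) : Nat := Bool.rec (s99_109 i sh) (s109_121 i sh) (Nat.ble 109 i)
noncomputable def s80_121 (i sh : Nat) : Nat := Bool.rec (s80_99 i sh) (s99_121 i sh) (Nat.ble 99 i)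
noncomputable def s121_123 (i sh : Nat) : Nat := Bool.rec (Nat.shiftRight leaf121 sh) (Nat.shiftRight leaf122 sh) (Nat.ble 122 i)
noncomputable def s123_125 (i sh : Nat) : Nat := Bool.rec (Nat.shiftRight leaf123 sh) (Nat.shiftRight leaf124 sh) (Nat.ble 124 i)
noncomputable def s121_125 (i sh : Nat) : Nat := Bool.rec (s121_123 i sh) (s123_125 i sh) (Nat.ble 123 i)
noncomputable def s125_127 (i sh : Nat) : Nat := Bool.rec (Nat.shiftRight leaf125 sh) (Nat.shiftRight leaf126 sh) (Nat.ble 126 i)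
noncomputable def s128_130 (i sh : Nat) : Nat := Bool.rec (Nat.shiftRight leaf128 sh) (Nat.shiftRight leaf129 sh) (Nat.ble 129 i)
noncomputable def s127_130 (i sh : Nat) : Nat := Bool.rec (Nat.shiftRight leaf127 sh) (s128_130 i sh) (Nat.ble 128 i)
noncomputable def s125_130 (i sh : Nat) : Nat := Bool.rec (s125_127 i sh) (s127_130 i sh) (Nat.ble 127 i)
noncomputable def s121_130 (i sh : Nat) : Nat := Bool.rec (s121_125 i sh) (s125_130 i sh) (Nat.ble 125 i)
noncomputable def s130_132 (i sh : Nat) : Nat := Bool.rec (Nat.shiftRight leaf130 sh) (Nat.shiftRight leaf131 sh) (Nat.ble 131 i)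
noncomputable def s133_135 (i sh : Nat) : Nat := Bool.rec (Nat.shiftRight leaf133 sh) (Nat.shiftRight leaf134 sh) (Nat.ble 134 i)
noncomputable def s132_135 (i sh : Nat) : Nat := Bool.rec (Nat.shiftRight leaf132 sh) (s133_135 i sh) (Nat.ble 133 i)
noncomputable def s130_135 (i sh : Nat) : Nat := Bool.rec (s130_132 i sh) (s132_135 i sh) (Nat.ble 132 i)
noncomputable def s135_137 (i sh : Nat) : Nat := Bool.rec (Nat.shiftRight leaf135 sh) (Nat.shiftRight leaf136 sh) (Nat.ble 136 i)
noncomputable def s138_140 (i sh : Nat) : Nat := Bool.rec (Nat.shiftRight leaf138 sh) (Nat.shiftRight leaf139 sh) (Nat.ble 139 i)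
noncomputable def s137_140 (i sh : Nat) : Nat := Bool.rec (Nat.shiftRight leaf137 sh) (s138_140 i sh) (Nat.ble 138 i)
noncomputable def s135_140 (i sh : Nat) : Nat := Bool.rec (s135_137 i sh) (s137_140 i sh) (Nat.ble 137 i)
noncomputable def s130_140 (i sh : Nat) : Nat := Bool.rec (s130_135 i sh) (s135_140 i sh) (Nat.ble 135 i)
noncomputable def s121_140 (i sh : Nat) : Nat := Bool.rec (s121_130 i sh) (s130_140 i sh) (Nat.ble 130 i)
noncomputable def s140_142 (i sh : Nat) : Nat := Bool.rec (Nat.shiftRight leaf140 sh) (Nat.shiftRight leaf141 sh) (Nat.ble 141 i)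
noncomputable def s142_144 (i sh : Nat) : Nat := Bool.rec (Nat.shiftRight leaf142 sh) (Nat.shiftRight leaf143 sh) (Nat.ble 143 i)
noncomputable def s140_144 (i sh : Nat) : Nat := Bool.rec (s140_142 i sh) (s142_144 i sh) (Nat.ble 142 i)
noncomputable def s144_146 (i sh : Nat) : Nat := Bool.rec (Nat.shiftRight leaf144 sh) (Nat.shiftRight leaf145 sh) (Nat.ble 145 i)
noncomputable def s147_149 (i sh : Nat) : Nat := Bool.rec (Nat.shiftRight leaf147 sh) (Nat.shiftRight leaf148 sh) (Nat.ble 148 i)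
noncomputable def s146_149 (i sh : Nat) : Nat := Bool.rec (Nat.shiftRight leaf146 sh) (s147_149 i sh) (Nat.ble 147 i)
noncomputable def s144_149 (i sh : Nat) : Nat := Bool.rec (s144_146 i sh) (s146_149 i sh) (Nat.ble 146 i)
noncomputable def s140_149 (i sh : Nat) : Nat := Bool.rec (s140_144 i sh) (s144_149 i sh) (Nat.ble 144 i)
noncomputable def s149_151 (i sh : Nat) : Nat := Bool.rec (Nat.shiftRight leaf149 sh) (Nat.shiftRight leaf150 sh) (Nat.ble 150 i)
noncomputable def s152_154 (i sh : Nat) : Nat := Bool.rec (Nat.shiftRight leaf152 sh) (Nat.shiftRight leaf153 sh) (Nat.ble 153 i)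
noncomputable def s151_154 (i sh : Nat) : Nat := Bool.rec (Nat.shiftRight leaf151 sh) (s152_154 i sh) (Nat.ble 152 i)
noncomputable def s149_154 (i sh : Nat) : Nat := Bool.rec (s149_151 i sh) (s151_154 i sh) (Nat.ble 151 i)
noncomputable def s154_156 (i sh : Nat) : Nat := Bool.rec (Nat.shiftRight leaf154 sh) (Nat.shiftRight leaf155 sh) (Nat.ble 155 i)
noncomputable def s157_159 (i sh : Nat) : Nat := Bool.rec (Nat.shiftRight leaf157 sh) (Nat.shiftRight leaf158 sh) (Nat.ble 158 i)
noncomputable def s156_159 (i sh : Nat) : Nat := Bool.rec (Nat.shiftRight leaf156 sh) (s157_159 i sh) (Nat.ble 157 i)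
noncomputable def s154_159 (i sh : Nat) : Nat := Bool.rec (s154_156 i sh) (s156_159 i sh) (Nat.ble 156 i)
noncomputable def s149_159 (i sh : Nat) : Nat := Bool.rec (s149_154 i sh) (s154_159 i sh) (Nat.ble 154 i)
noncomputable def s140_159 (i sh : Nat) : Nat := Bool.rec (s140_149 i sh) (s149_159 i sh) (Nat.ble 149 i)
noncomputable def s121_159 (i sh : Nat) : Nat := Bool.rec (s121_140 i sh) (s140_159 i sh) (Nat.ble 140 i)
noncomputable def s159_161 (i sh : Nat) : Nat := Bool.rec (Nat.shiftRight leaf159 sh) (Nat.shiftRight leaf160 sh) (Nat.ble 160 i)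
noncomputable def s161_163 (i sh : Nat) : Nat := Bool.rec (Nat.shiftRight leaf161 sh) (Nat.shiftRight leaf162 sh) (Nat.ble 162 i)
noncomputable def s159_163 (i sh : Nat) : Nat := Bool.rec (s159_161 i sh) (s161_163 i sh) (Nat.ble 161 i)
noncomputable def s163_165 (i sh : Nat) : Nat := Bool.rec (Nat.shiftRight leaf163 sh) (Nat.shiftRight leaf164 sh) (Nat.ble 164 i)
noncomputable def s166_168 (i sh : Nat) : Nat := Bool.rec (Nat.shiftRight leaf166 sh) (Nat.shiftRight leaf167 sh) (Nat.ble 167 i)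
noncomputable def s165_168 (i sh : Nat) : Nat := Bool.rec (Nat.shiftRight leaf165 sh) (s166_168 i sh) (Nat.ble 166 i)
noncomputable def s163_168 (i sh : Nat) : Nat := Bool.rec (s163_165 i sh) (s165_168 i sh) (Nat.ble 165 i)
noncomputable def s159_168 (i sh : Nat) : Nat := Bool.rec (s159_163 i sh) (s163_168 i sh) (Nat.ble 163 i)
noncomputable def s168_170 (i sh : Nat) : Nat := Bool.rec (Nat.shiftRight leaf168 sh) (Nat.shiftRight leaf169 sh) (Nat.ble 169 i)
noncomputable def s171_173 (i sh : Nat) : Nat := Bool.rec (Nat.shiftRight leaf171 sh) (Nat.shiftRight leaf172 sh) (Nat.ble 172 i)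
noncomputable def s170_173 (i sh : Nat) : Nat := Bool.rec (Nat.shiftRight leaf170 sh) (s171_173 i sh) (Nat.ble 171 i)
noncomputable def s168_173 (i sh : Nat) : Nat := Bool.rec (s168_170 i sh) (s170_173 i sh) (Nat.ble 170 i)
noncomputable def s173_175 (i sh : Nat) : Nat := Bool.rec (Nat.shiftRight leaf173 sh) (Nat.shiftRight leaf174 sh) (Nat.ble 174 i)
noncomputable def s176_178 (i sh : Nat) : Nat := Bool.rec (Nat.shiftRight leaf176 sh) (Nat.shiftRight leaf177 sh) (Nat.ble 177 i)
noncomputable def s175_178 (i sh : Nat) : Nat := Bool.rec (Nat.shiftRight leaf175 sh) (s176_178 i sh) (Nat.ble 176 i)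
noncomputable def s173_178 (i sh : Nat) : Nat := Bool.rec (s173_175 i sh) (s175_178 i sh) (Nat.ble 175 i)
noncomputable def s168_178 (i sh : Nat) : Nat := Bool.rec (s168_173 i sh) (s173_178 i sh) (Nat.ble 173 i)
noncomputable def s159_178 (i sh : Nat) : Nat := Bool.rec (s159_168 i sh) (s168_178 i sh) (Nat.ble 168 i)
noncomputable def s178_180 (i sh : Nat) : Nat := Bool.rec (Nat.shiftRight leaf178 sh) (Nat.shiftRight leaf179 sh) (Nat.ble 179 i)
noncomputable def s180_182 (i sh : Nat) : Nat := Bool.rec (Nat.shiftRight leaf180 sh) (Nat.shiftRight leaf181 sh) (Nat.ble 181 i)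
noncomputable def s178_182 (i sh : Nat) : Nat := Bool.rec (s178_180 i sh) (s180_182 i sh) (Nat.ble 180 i)
noncomputable def s182_184 (i sh : Nat) : Nat := Bool.rec (Nat.shiftRight leaf182 sh) (Nat.shiftRight leaf183 sh) (Nat.ble 183 i)
noncomputable def s185_187 (i sh : Nat) : Nat := Bool.rec (Nat.shiftRight leaf185 sh) (Nat.shiftRight leaf186 sh) (Nat.ble 186 i)
noncomputable def s184_187 (i sh : Nat) : Nat := Bool.rec (Nat.shiftRight leaf184 sh) (s185_187 i sh) (Nat.ble 185 i)
noncomputable def s182_187 (i sh : Nat) : Nat := Bool.rec (s182_184 i sh) (s184_187 i sh) (Nat.ble 184 i)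
noncomputable def s178_187 (i sh : Nat) : Nat := Bool.rec (s178_182 i sh) (s182_187 i sh) (Nat.ble 182 i)
noncomputable def s187_189 (i sh : Nat) : Nat := Bool.rec (Nat.shiftRight leaf187 sh) (Nat.shiftRight leaf188 sh) (Nat.ble 188 i)
noncomputable def s190_192 (i sh : Nat) : Nat := Bool.rec (Nat.shiftRight leaf190 sh) (Nat.shiftRight leaf191 sh) (Nat.ble 191 i)
noncomputable def s189_192 (i sh : Nat) : Nat := Bool.rec (Nat.shiftRight leaf189 sh) (s190_192 i sh) (Nat.ble 190 i)
noncomputable def s187_192 (i sh : Nat) : Nat := Bool.rec (s187_189 i sh) (s189_192 i sh) (Nat.ble 189 i)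
noncomputable def s192_194 (i sh : Nat) : Nat := Bool.rec (Nat.shiftRight leaf192 sh) (Nat.shiftRight leaf193 sh) (Nat.ble 193 i)
noncomputable def s195_197 (i sh : Nat) : Nat := Bool.rec (Nat.shiftRight leaf195 sh) (Nat.shiftRight leaf196 sh) (Nat.ble 196 i)
noncomputable def s194_197 (i sh : Nat) : Nat := Bool.rec (Nat.shiftRight leaf194 sh) (s195_197 i sh) (Nat.ble 195 i)
noncomputable def s192_197 (i sh : Nat) : Nat := Bool.rec (s192_194 i sh) (s194_197 i sh) (Nat.ble 194 i)
noncomputable def s187_197 (i sh : Nat) : Nat := Bool.rec (s187_192 i sh) (s192_197 i sh) (Nat.ble 192 i)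
noncomputable def s178_197 (i sh : Nat) : Nat := Bool.rec (s178_187 i sh) (s187_197 i sh) (Nat.ble 187 i)
noncomputable def s159_197 (i sh : Nat) : Nat := Bool.rec (s159_178 i sh) (s178_197 i sh) (Nat.ble 178 i)
noncomputable def s121_197 (i sh : Nat) : Nat := Bool.rec (s121_159 i sh) (s159_197 i sh) (Nat.ble 159 i)
noncomputable def s80_197 (i sh : Nat) : Nat := Bool.rec (s80_121 i sh) (s121_197 i sh) (Nat.ble 121 i)
noncomputable def s40_197 (i sh : Nat) : Nat := Bool.rec (s40_80 i sh) (s80_197 i sh) (Nat.ble 80 i)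
noncomputable def s197_199 (i sh : Nat) : Nat := Bool.rec (Nat.shiftRight leaf197 sh) (Nat.shiftRight leaf198 sh) (Nat.ble 198 i)
noncomputable def s199_201 (i sh : Nat) : Nat := Bool.rec (Nat.shiftRight leaf199 sh) (Nat.shiftRight leaf200 sh) (Nat.ble 200 i)
noncomputable def s197_201 (i sh : Nat) : Nat := Bool.rec (s197_199 i sh) (s199_201 i sh) (Nat.ble 199 i)
noncomputable def s201_203 (i sh : Nat) : Nat := Bool.rec (Nat.shiftRight leaf201 sh) (Nat.shiftRight leaf202 sh) (Nat.ble 202 i)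
noncomputable def s204_206 (i sh : Nat) : Nat := Bool.rec (Nat.shiftRight leaf204 sh) (Nat.shiftRight leaf205 sh) (Nat.ble 205 i)
noncomputable def s203_206 (i sh : Nat) : Nat := Bool.rec (Nat.shiftRight leaf203 sh) (s204_206 i sh) (Nat.ble 204 i)
noncomputable def s201_206 (i sh : Nat) : Nat := Bool.rec (s201_203 i sh) (s203_206 i sh) (Nat.ble 203 i)
noncomputable def s197_206 (i sh : Nat) : Nat := Bool.rec (s197_201 i sh) (s201_206 i sh) (Nat.ble 201 i)
noncomputable def s206_208 (i sh : Nat) : Nat := Bool.rec (Nat.shiftRight leaf206 sh) (Nat.shiftRight leaf207 sh) (Nat.ble 207 i)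
noncomputable def s208_210 (i sh : Nat) : Nat := Bool.rec (Nat.shiftRight leaf208 sh) (Nat.shiftRight leaf209 sh) (Nat.ble 209 i)
noncomputable def s206_210 (i sh : Nat) : Nat := Bool.rec (s206_208 i sh) (s208_210 i sh) (Nat.ble 208 i)
noncomputable def s210_212 (i sh : Nat) : Nat := Bool.rec (Nat.shiftRight leaf210 sh) (Nat.shiftRight leaf211 sh) (Nat.ble 211 i)
noncomputable def s213_215 (i sh : Nat) : Nat := Bool.rec (Nat.shiftRight leaf213 sh) (Nat.shiftRight leaf214 sh) (Nat.ble 214 i)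
noncomputable def s212_215 (i sh : Nat) : Nat := Bool.rec (Nat.shiftRight leaf212 sh) (s213_215 i sh) (Nat.ble 213 i)
noncomputable def s210_215 (i sh : Nat) : Nat := Bool.rec (s210_212 i sh) (s212_215 i sh) (Nat.ble 212 i)
noncomputable def s206_215 (i sh : Nat) : Nat := Bool.rec (s206_210 i sh) (s210_215 i sh) (Nat.ble 210 i)
noncomputable def s197_215 (i sh : Nat) : Nat := Bool.rec (s197_206 i sh) (s206_215 i sh) (Nat.ble 206 i)
noncomputable def s215_217 (i sh : Nat) : Nat := Bool.rec (Nat.shiftRight leaf215 sh) (Nat.shiftRight leaf216 sh) (Nat.ble 216 i)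
noncomputable def s217_219 (i sh : Nat) : Nat := Bool.rec (Nat.shiftRight leaf217 sh) (Nat.shiftRight leaf218 sh) (Nat.ble 218 i)
noncomputable def s215_219 (i sh : Nat) : Nat := Bool.rec (s215_217 i sh) (s217_219 i sh) (Nat.ble 217 i)
noncomputable def s219_221 (i sh : Nat) : Nat := Bool.rec (Nat.shiftRight leaf219 sh) (Nat.shiftRight leaf220 sh) (Nat.ble 220 i)
noncomputable def s222_224 (i sh : Nat) : Nat := Bool.rec (Nat.shiftRight leaf222 sh) (Nat.shiftRight leaf223 sh) (Nat.ble 223 i)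
noncomputable def s221_224 (i sh : Nat) : Nat := Bool.rec (Nat.shiftRight leaf221 sh) (s222_224 i sh) (Nat.ble 222 i)
noncomputable def s219_224 (i sh : Nat) : Nat := Bool.rec (s219_221 i sh) (s221_224 i sh) (Nat.ble 221 i)
noncomputable def s215_224 (i sh : Nat) : Nat := Bool.rec (s215_219 i sh) (s219_224 i sh) (Nat.ble 219 i)
noncomputable def s224_226 (i sh : Nat) : Nat := Bool.rec (Nat.shiftRight leaf224 sh) (Nat.shiftRight leaf225 sh) (Nat.ble 225 i)
noncomputable def s226_228 (i sh : Nat) : Nat := Bool.rec (Nat.shiftRight leaf226 sh) (Nat.shiftRight leaf227 sh) (Nat.ble 227 i)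
noncomputable def s224_228 (i sh : Nat) : Nat := Bool.rec (s224_226 i sh) (s226_228 i sh) (Nat.ble 226 i)
noncomputable def s228_230 (i sh : Nat) : Nat := Bool.rec (Nat.shiftRight leaf228 sh) (Nat.shiftRight leaf229 sh) (Nat.ble 229 i)
noncomputable def s231_233 (i sh : Nat) : Nat := Bool.rec (Nat.shiftRight leaf231 sh) (Nat.shiftRight leaf232 sh) (Nat.ble 232 i)
noncomputable def s230_233 (i sh : Nat) : Nat := Bool.rec (Nat.shiftRight leaf230 sh) (s231_233 i sh) (Nat.ble 231 i)
noncomputable def s228_233 (i sh : Nat) : Nat := Bool.rec (s228_230 i sh) (s230_233 i sh) (Nat.ble 230 i)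
noncomputable def s224_233 (i sh : Nat) : Nat := Bool.rec (s224_228 i sh) (s228_233 i sh) (Nat.ble 228 i)
noncomputable def s215_233 (i sh : Nat) : Nat := Bool.rec (s215_224 i sh) (s224_233 i sh) (Nat.ble 224 i)
noncomputable def s197_233 (i sh : Nat) : Nat := Bool.rec (s197_215 i sh) (s215_233 i sh) (Nat.ble 215 i)
noncomputable def s233_235 (i sh : Nat) : Nat := Bool.rec (Nat.shiftRight leaf233 sh) (Nat.shiftRight leaf234 sh) (Nat.ble 234 i)
noncomputable def s235_237 (i sh : Nat) : Nat := Bool.rec (Nat.shiftRight leaf235 sh) (Nat.shiftRight leaf236 sh) (Nat.ble 236 i)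
noncomputable def s233_237 (i sh : Nat) : Nat := Bool.rec (s233_235 i sh) (s235_237 i sh) (Nat.ble 235 i)
noncomputable def s237_239 (i sh : Nat) : Nat := Bool.rec (Nat.shiftRight leaf237 sh) (Nat.shiftRight leaf238 sh) (Nat.ble 238 i)
noncomputable def s240_242 (i sh : Nat) : Nat := Bool.rec (Nat.shiftRight leaf240 sh) (Nat.shiftRight leaf241 sh) (Nat.ble 241 i)
noncomputable def s239_242 (i sh : Nat) : Nat := Bool.rec (Nat.shiftRight leaf239 sh) (s240_242 i sh) (Nat.ble 240 i)
noncomputable def s237_242 (i sh : Nat) : Nat := Bool.rec (s237_239 i sh) (s239_242 i sh) (Nat.ble 239 i)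
noncomputable def s233_242 (i sh : Nat) : Nat := Bool.rec (s233_237 i sh) (s237_242 i sh) (Nat.ble 237 i)
noncomputable def s242_244 (i sh : Nat) : Nat := Bool.rec (Nat.shiftRight leaf242 sh) (Nat.shiftRight leaf243 sh) (Nat.ble 243 i)
noncomputable def s244_246 (i sh : Nat) : Nat := Bool.rec (Nat.shiftRight leaf244 sh) (Nat.shiftRight leaf245 sh) (Nat.ble 245 i)
noncomputable def s242_246 (i sh : Nat) : Nat := Bool.rec (s242_244 i sh) (s244_246 i sh) (Nat.ble 244 i)
noncomputable def s246_248 (i sh : Nat) : Nat := Bool.rec (Nat.shiftRight leaf246 sh) (Nat.shiftRight leaf247 sh) (Nat.ble 247 i)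
noncomputable def s249_251 (i sh : Nat) : Nat := Bool.rec (Nat.shiftRight leaf249 sh) (Nat.shiftRight leaf250 sh) (Nat.ble 250 i)
noncomputable def s248_251 (i sh : Nat) : Nat := Bool.rec (Nat.shiftRight leaf248 sh) (s249_251 i sh) (Nat.ble 249 i)
noncomputable def s246_251 (i sh : Nat) : Nat := Bool.rec (s246_248 i sh) (s248_251 i sh) (Nat.ble 248 i)
noncomputable def s242_251 (i sh : Nat) : Nat := Bool.rec (s242_246 i sh) (s246_251 i sh) (Nat.ble 246 i)
noncomputable def s233_251 (i sh : Nat) : Nat := Bool.rec (s233_242 i sh) (s242_251 i sh) (Nat.ble 242 i)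
noncomputable def s251_253 (i sh : Nat) : Nat := Bool.rec (Nat.shiftRight leaf251 sh) (Nat.shiftRight leaf252 sh) (Nat.ble 252 i)
noncomputable def s253_255 (i sh : Nat) : Nat := Bool.rec (Nat.shiftRight leaf253 sh) (Nat.shiftRight leaf254 sh) (Nat.ble 254 i)
noncomputable def s251_255 (i sh : Nat) : Nat := Bool.rec (s251_253 i sh) (s253_255 i sh) (Nat.ble 253 i)
noncomputable def s255_257 (i sh : Nat) : Nat := Bool.rec (Nat.shiftRight leaf255 sh) (Nat.shiftRight leaf256 sh) (Nat.ble 256 i)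
noncomputable def s258_260 (i sh : Nat) : Nat := Bool.rec (Nat.shiftRight leaf258 sh) (Nat.shiftRight leaf259 sh) (Nat.ble 259 i)
noncomputable def s257_260 (i sh : Nat) : Nat := Bool.rec (Nat.shiftRight leaf257 sh) (s258_260 i sh) (Nat.ble 258 i)
noncomputable def s255_260 (i sh : Nat) : Nat := Bool.rec (s255_257 i sh) (s257_260 i sh) (Nat.ble 257 i)
noncomputable def s251_260 (i sh : Nat) : Nat := Bool.rec (s251_255 i sh) (s255_260 i sh) (Nat.ble 255 i)
noncomputable def s260_262 (i sh : Nat) : Nat := Bool.rec (Nat.shiftRight leaf260 sh) (Nat.shiftRight leaf261 sh) (Nat.ble 261 i)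
noncomputable def s263_265 (i sh : Nat) : Nat := Bool.rec (Nat.shiftRight leaf263 sh) (Nat.shiftRight leaf264 sh) (Nat.ble 264 i)
noncomputable def s262_265 (i sh : Nat) : Nat := Bool.rec (Nat.shiftRight leaf262 sh) (s263_265 i sh) (Nat.ble 263 i)
noncomputable def s260_265 (i sh : Nat) : Nat := Bool.rec (s260_262 i sh) (s262_265 i sh) (Nat.ble 262 i)
noncomputable def s265_267 (i sh : Nat) : Nat := Bool.rec (Nat.shiftRight leaf265 sh) (Nat.shiftRight leaf266 sh) (Nat.ble 266 i)
noncomputable def s268_270 (i sh : Nat) : Nat := Bool.rec (Nat.shiftRight leaf268 sh) (Nat.shiftRight leaf269 sh) (Nat.ble 269 i)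
noncomputable def s267_270 (i sh : Nat) : Nat := Bool.rec (Nat.shiftRight leaf267 sh) (s268_270 i sh) (Nat.ble 268 i)
noncomputable def s265_270 (i sh : Nat) : Nat := Bool.rec (s265_267 i sh) (s267_270 i sh) (Nat.ble 267 i)
noncomputable def s260_270 (i sh : Nat) : Nat := Bool.rec (s260_265 i sh) (s265_270 i sh) (Nat.ble 265 i)
noncomputable def s251_270 (i sh : Nat) : Nat := Bool.rec (s251_260 i sh) (s260_270 i sh) (Nat.ble 260 i)
noncomputable def s233_270 (i sh : Nat) : Nat := Bool.rec (s233_251 i sh) (s251_270 i sh) (Nat.ble 251 i)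
noncomputable def s197_270 (i sh : Nat) : Nat := Bool.rec (s197_233 i sh) (s233_270 i sh) (Nat.ble 233 i)
noncomputable def s271_273 (i sh : Nat) : Nat := Bool.rec (Nat.shiftRight leaf271 sh) (Nat.shiftRight leaf272 sh) (Nat.ble 272 i)
noncomputable def s273_275 (i sh : Nat) : Nat := Bool.rec (Nat.shiftRight leaf273 sh) (Nat.shiftRight leaf274 sh) (Nat.ble 274 i)
noncomputable def s273_276 (i sh : Nat) : Nat := Bool.rec (s273_275 i sh) (Nat.shiftRight leaf275 sh) (Nat.ble 275 i)
noncomputable def s271_276 (i sh : Nat) : Nat := Bool.rec (s271_273 i sh) (s273_276 i sh) (Nat.ble 273 i)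
noncomputable def s270_276 (i sh : Nat) : Nat := Bool.rec (Nat.shiftRight leaf270 sh) (s271_276 i sh) (Nat.ble 271 i)
noncomputable def s197_276 (i sh : Nat) : Nat := Bool.rec (s197_270 i sh) (s270_276 i sh) (Nat.ble 270 i)
noncomputable def s276_278 (i sh : Nat) : Nat := Bool.rec (Nat.shiftRight leaf276 sh) (Nat.shiftRight leaf277 sh) (Nat.ble 277 i)
noncomputable def s278_280 (i sh : Nat) : Nat := Bool.rec (Nat.shiftRight leaf278 sh) (Nat.shiftRight leaf279 sh) (Nat.ble 279 i)
noncomputable def s276_280 (i sh : Nat) : Nat := Bool.rec (s276_278 i sh) (s278_280 i sh) (Nat.ble 278 i)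
noncomputable def s280_282 (i sh : Nat) : Nat := Bool.rec (Nat.shiftRight leaf280 sh) (Nat.shiftRight leaf281 sh) (Nat.ble 281 i)
noncomputable def s280_283 (i sh : Nat) : Nat := Bool.rec (s280_282 i sh) (Nat.shiftRight leaf282 sh) (Nat.ble 282 i)
noncomputable def s276_283 (i sh : Nat) : Nat := Bool.rec (s276_280 i sh) (s280_283 i sh) (Nat.ble 280 i)
noncomputable def s276_284 (i sh : Nat) : Nat := Bool.rec (s276_283 i sh) (Nat.shiftRight leaf283 sh) (Nat.ble 283 i)
noncomputable def s197_284 (i sh : Nat) : Nat := Bool.rec (s197_276 i sh) (s276_284 i sh) (Nat.ble 276 i)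
noncomputable def s40_284 (i sh : Nat) : Nat := Bool.rec (s40_197 i sh) (s197_284 i sh) (Nat.ble 197 i)
noncomputable def s284_286 (i sh : Nat) : Nat := Bool.rec (Nat.shiftRight leaf284 sh) (Nat.shiftRight leaf285 sh) (Nat.ble 285 i)
noncomputable def s284_287 (i sh : Nat) : Nat := Bool.rec (s284_286 i sh) (Nat.shiftRight leaf286 sh) (Nat.ble 286 i)
noncomputable def s287_289 (i sh : Nat) : Nat := Bool.rec (Nat.shiftRight leaf287 sh) (Nat.shiftRight leaf288 sh) (Nat.ble 288 i)
noncomputable def s287_290 (i sh : Nat) : Nat := Bool.rec (s287_289 i sh) (Nat.shiftRight leaf289 sh) (Nat.ble 289 i)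
noncomputable def s291_293 (i sh : Nat) : Nat := Bool.rec (Nat.shiftRight leaf291 sh) (Nat.shiftRight leaf292 sh) (Nat.ble 292 i)
noncomputable def s290_293 (i sh : Nat) : Nat := Bool.rec (Nat.shiftRight leaf290 sh) (s291_293 i sh) (Nat.ble 291 i)
noncomputable def s294_296 (i sh : Nat) : Nat := Bool.rec (Nat.shiftRight leaf294 sh) (Nat.shiftRight leaf295 sh) (Nat.ble 295 i)
noncomputable def s293_296 (i sh : Nat) : Nat := Bool.rec (Nat.shiftRight leaf293 sh) (s294_296 i sh) (Nat.ble 294 i)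
noncomputable def s290_296 (i sh : Nat) : Nat := Bool.rec (s290_293 i sh) (s293_296 i sh) (Nat.ble 293 i)
noncomputable def s287_296 (i sh : Nat) : Nat := Bool.rec (s287_290 i sh) (s290_296 i sh) (Nat.ble 290 i)
noncomputable def s284_296 (i sh : Nat) : Nat := Bool.rec (s284_287 i sh) (s287_296 i sh) (Nat.ble 287 i)
noncomputable def s296_298 (i sh : Nat) : Nat := Bool.rec (Nat.shiftRight leaf296 sh) (Nat.shiftRight leaf297 sh) (Nat.ble 297 i)
noncomputable def s298_300 (i sh : Nat) : Nat := Bool.rec (Nat.shiftRight leaf298 sh) (Nat.shiftRight leaf299 sh) (Nat.ble 299 i)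
noncomputable def s296_300 (i sh : Nat) : Nat := Bool.rec (s296_298 i sh) (s298_300 i sh) (Nat.ble 298 i)
noncomputable def s284_300 (i sh : Nat) : Nat := Bool.rec (s284_296 i sh) (s296_300 i sh) (Nat.ble 296 i)
noncomputable def s300_302 (i sh : Nat) : Nat := Bool.rec (Nat.shiftRight leaf300 sh) (Nat.shiftRight leaf301 sh) (Nat.ble 301 i)
noncomputable def s302_304 (i sh : Nat) : Nat := Bool.rec (Nat.shiftRight leaf302 sh) (Nat.shiftRight leaf303 sh) (Nat.ble 303 i)
noncomputable def s300_304 (i sh : Nat) : Nat := Bool.rec (s300_302 i sh) (s302_304 i sh) (Nat.ble 302 i)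
noncomputable def s304_306 (i sh : Nat) : Nat := Bool.rec (Nat.shiftRight leaf304 sh) (Nat.shiftRight leaf305 sh) (Nat.ble 305 i)
noncomputable def s304_307 (i sh : Nat) : Nat := Bool.rec (s304_306 i sh) (Nat.shiftRight leaf306 sh) (Nat.ble 306 i)
noncomputable def s300_307 (i sh : Nat) : Nat := Bool.rec (s300_304 i sh) (s304_307 i sh) (Nat.ble 304 i)
noncomputable def s307_309 (i sh : Nat) : Nat := Bool.rec (Nat.shiftRight leaf307 sh) (Nat.shiftRight leaf308 sh) (Nat.ble 308 i)
noncomputable def s307_310 (i sh : Nat) : Nat := Bool.rec (s307_309 i sh) (Nat.shiftRight leaf309 sh) (Nat.ble 309 i)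
noncomputable def s310_312 (i sh : Nat) : Nat := Bool.rec (Nat.shiftRight leaf310 sh) (Nat.shiftRight leaf311 sh) (Nat.ble 311 i)
noncomputable def s310_313 (i sh : Nat) : Nat := Bool.rec (s310_312 i sh) (Nat.shiftRight leaf312 sh) (Nat.ble 312 i)
noncomputable def s307_313 (i sh : Nat) : Nat := Bool.rec (s307_310 i sh) (s310_313 i sh) (Nat.ble 310 i)
noncomputable def s300_313 (i sh : Nat) : Nat := Bool.rec (s300_307 i sh) (s307_313 i sh) (Nat.ble 307 i)
noncomputable def s284_313 (i sh : Nat) : Nat := Bool.rec (s284_300 i sh) (s300_313 i sh) (Nat.ble 300 i)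
noncomputable def s313_315 (i sh : Nat) : Nat := Bool.rec (Nat.shiftRight leaf313 sh) (Nat.shiftRight leaf314 sh) (Nat.ble 314 i)
noncomputable def s313_316 (i sh : Nat) : Nat := Bool.rec (s313_315 i sh) (Nat.shiftRight leaf315 sh) (Nat.ble 315 i)
noncomputable def s316_318 (i sh : Nat) : Nat := Bool.rec (Nat.shiftRight leaf316 sh) (Nat.shiftRight leaf317 sh) (Nat.ble 317 i)
noncomputable def s313_318 (i sh : Nat) : Nat := Bool.rec (s313_316 i sh) (s316_318 i sh) (Nat.ble 316 i)
noncomputable def s319_321 (i sh : Nat) : Nat := Bool.rec (Nat.shiftRight leaf319 sh) (Nat.shiftRight leaf320 sh) (Nat.ble 320 i)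
noncomputable def s318_321 (i sh : Nat) : Nat := Bool.rec (Nat.shiftRight leaf318 sh) (s319_321 i sh) (Nat.ble 319 i)
noncomputable def s321_323 (i sh : Nat) : Nat := Bool.rec (Nat.shiftRight leaf321 sh) (Nat.shiftRight leaf322 sh) (Nat.ble 322 i)
noncomputable def s323_325 (i sh : Nat) : Nat := Bool.rec (Nat.shiftRight leaf323 sh) (Nat.shiftRight leaf324 sh) (Nat.ble 324 i)
noncomputable def s321_325 (i sh : Nat) : Nat := Bool.rec (s321_323 i sh) (s323_325 i sh) (Nat.ble 323 i)
noncomputable def s318_325 (i sh : Nat) : Nat := Bool.rec (s318_321 i sh) (s321_325 i sh) (Nat.ble 321 i)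
noncomputable def s313_325 (i sh : Nat) : Nat := Bool.rec (s313_318 i sh) (s318_325 i sh) (Nat.ble 318 i)
noncomputable def s326_328 (i sh : Nat) : Nat := Bool.rec (Nat.shiftRight leaf326 sh) (Nat.shiftRight leaf327 sh) (Nat.ble 327 i)
noncomputable def s326_329 (i sh : Nat) : Nat := Bool.rec (s326_328 i sh) (Nat.shiftRight leaf328 sh) (Nat.ble 328 i)
noncomputable def s325_329 (i sh : Nat) : Nat := Bool.rec (Nat.shiftRight leaf325 sh) (s326_329 i sh) (Nat.ble 326 i)
noncomputable def s329_331 (i sh : Nat) : Nat := Bool.rec (Nat.shiftRight leaf329 sh) (Nat.shiftRight leaf330 sh) (Nat.ble 330 i)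
noncomputable def s325_331 (i sh : Nat) : Nat := Bool.rec (s325_329 i sh) (s329_331 i sh) (Nat.ble 329 i)
noncomputable def s313_331 (i sh : Nat) : Nat := Bool.rec (s313_325 i sh) (s325_331 i sh) (Nat.ble 325 i)
noncomputable def s331_333 (i sh : Nat) : Nat := Bool.rec (Nat.shiftRight leaf331 sh) (Nat.shiftRight leaf332 sh) (Nat.ble 332 i)
noncomputable def s333_335 (i sh : Nat) : Nat := Bool.rec (Nat.shiftRight leaf333 sh) (Nat.shiftRight leaf334 sh) (Nat.ble 334 i)
noncomputable def s331_335 (i sh : Nat) : Nat := Bool.rec (s331_333 i sh) (s333_335 i sh) (Nat.ble 333 i)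
noncomputable def s335_337 (i sh : Nat) : Nat := Bool.rec (Nat.shiftRight leaf335 sh) (Nat.shiftRight leaf336 sh) (Nat.ble 336 i)
noncomputable def s331_337 (i sh : Nat) : Nat := Bool.rec (s331_335 i sh) (s335_337 i sh) (Nat.ble 335 i)
noncomputable def s338_340 (i sh : Nat) : Nat := Bool.rec (Nat.shiftRight leaf338 sh) (Nat.shiftRight leaf339 sh) (Nat.ble 339 i)
noncomputable def s337_340 (i sh : Nat) : Nat := Bool.rec (Nat.shiftRight leaf337 sh) (s338_340 i sh) (Nat.ble 338 i)
noncomputable def s341_343 (i sh : Nat) : Nat := Bool.rec (Nat.shiftRight leaf341 sh) (Nat.shiftRight leaf342 sh) (Nat.ble 342 i)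
noncomputable def s340_343 (i sh : Nat) : Nat := Bool.rec (Nat.shiftRight leaf340 sh) (s341_343 i sh) (Nat.ble 341 i)
noncomputable def s337_343 (i sh : Nat) : Nat := Bool.rec (s337_340 i sh) (s340_343 i sh) (Nat.ble 340 i)
noncomputable def s331_343 (i sh : Nat) : Nat := Bool.rec (s331_337 i sh) (s337_343 i sh) (Nat.ble 337 i)
noncomputable def s344_346 (i sh : Nat) : Nat := Bool.rec (Nat.shiftRight leaf344 sh) (Nat.shiftRight leaf345 sh) (Nat.ble 345 i)
noncomputable def s343_346 (i sh : Nat) : Nat := Bool.rec (Nat.shiftRight leaf343 sh) (s344_346 i sh) (Nat.ble 344 i)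
noncomputable def s346_348 (i sh : Nat) : Nat := Bool.rec (Nat.shiftRight leaf346 sh) (Nat.shiftRight leaf347 sh) (Nat.ble 347 i)
noncomputable def s343_348 (i sh : Nat) : Nat := Bool.rec (s343_346 i sh) (s346_348 i sh) (Nat.ble 346 i)
noncomputable def s348_350 (i sh : Nat) : Nat := Bool.rec (Nat.shiftRight leaf348 sh) (Nat.shiftRight leaf349 sh) (Nat.ble 349 i)
noncomputable def s343_350 (i sh : Nat) : Nat := Bool.rec (s343_348 i sh) (s348_350 i sh) (Nat.ble 348 i)
noncomputable def s351_353 (i sh : Nat) : Nat := Bool.rec (Nat.shiftRight leaf351 sh) (Nat.shiftRight leaf352 sh) (Nat.ble 352 i)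
noncomputable def s350_353 (i sh : Nat) : Nat := Bool.rec (Nat.shiftRight leaf350 sh) (s351_353 i sh) (Nat.ble 351 i)
noncomputable def s353_355 (i sh : Nat) : Nat := Bool.rec (Nat.shiftRight leaf353 sh) (Nat.shiftRight leaf354 sh) (Nat.ble 354 i)
noncomputable def s355_357 (i sh : Nat) : Nat := Bool.rec (Nat.shiftRight leaf355 sh) (Nat.shiftRight leaf356 sh) (Nat.ble 356 i)
noncomputable def s353_357 (i sh : Nat) : Nat := Bool.rec (s353_355 i sh) (s355_357 i sh) (Nat.ble 355 i)
noncomputable def s350_357 (i sh : Nat) : Nat := Bool.rec (s350_353 i sh) (s353_357 i sh) (Nat.ble 353 i)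
noncomputable def s343_357 (i sh : Nat) : Nat := Bool.rec (s343_350 i sh) (s350_357 i sh) (Nat.ble 350 i)
noncomputable def s331_357 (i sh : Nat) : Nat := Bool.rec (s331_343 i sh) (s343_357 i sh) (Nat.ble 343 i)
noncomputable def s313_357 (i sh : Nat) : Nat := Bool.rec (s313_331 i sh) (s331_357 i sh) (Nat.ble 331 i)
noncomputable def s284_357 (i sh : Nat) : Nat := Bool.rec (s284_313 i sh) (s313_357 i sh) (Nat.ble 313 i)
noncomputable def s40_357 (i sh : Nat) : Nat := Bool.rec (s40_284 i sh) (s284_357 i sh) (Nat.ble 284 i)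
noncomputable def s357_359 (i sh : Nat) : Nat := Bool.rec (Nat.shiftRight leaf357 sh) (Nat.shiftRight leaf358 sh) (Nat.ble 358 i)
noncomputable def s359_361 (i sh : Nat) : Nat := Bool.rec (Nat.shiftRight leaf359 sh) (Nat.shiftRight leaf360 sh) (Nat.ble 360 i)
noncomputable def s357_361 (i sh : Nat) : Nat := Bool.rec (s357_359 i sh) (s359_361 i sh) (Nat.ble 359 i)
noncomputable def s361_363 (i sh : Nat) : Nat := Bool.rec (Nat.shiftRight leaf361 sh) (Nat.shiftRight leaf362 sh) (Nat.ble 362 i)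
noncomputable def s361_364 (i sh : Nat) : Nat := Bool.rec (s361_363 i sh) (Nat.shiftRight leaf363 sh) (Nat.ble 363 i)
noncomputable def s361_365 (i sh : Nat) : Nat := Bool.rec (s361_364 i sh) (Nat.shiftRight leaf364 sh) (Nat.ble 364 i)
noncomputable def s357_365 (i sh : Nat) : Nat := Bool.rec (s357_361 i sh) (s361_365 i sh) (Nat.ble 361 i)
noncomputable def s365_367 (i sh : Nat) : Nat := Bool.rec (Nat.shiftRight leaf365 sh) (Nat.shiftRight leaf366 sh) (Nat.ble 366 i)
noncomputable def s367_369 (i sh : Nat) : Nat := Bool.rec (Nat.shiftRight leaf367 sh) (Nat.shiftRight leaf368 sh) (Nat.ble 368 i)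
noncomputable def s365_369 (i sh : Nat) : Nat := Bool.rec (s365_367 i sh) (s367_369 i sh) (Nat.ble 367 i)
noncomputable def s365_370 (i sh : Nat) : Nat := Bool.rec (s365_369 i sh) (Nat.shiftRight leaf369 sh) (Nat.ble 369 i)
noncomputable def s371_373 (i sh : Nat) : Nat := Bool.rec (Nat.shiftRight leaf371 sh) (Nat.shiftRight leaf372 sh) (Nat.ble 372 i)
noncomputable def s370_373 (i sh : Nat) : Nat := Bool.rec (Nat.shiftRight leaf370 sh) (s371_373 i sh) (Nat.ble 371 i)
noncomputable def s373_375 (i sh : Nat) : Nat := Bool.rec (Nat.shiftRight leaf373 sh) (Nat.shiftRight leaf374 sh) (Nat.ble 374 i)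
noncomputable def s370_375 (i sh : Nat) : Nat := Bool.rec (s370_373 i sh) (s373_375 i sh) (Nat.ble 373 i)
noncomputable def s375_377 (i sh : Nat) : Nat := Bool.rec (Nat.shiftRight leaf375 sh) (Nat.shiftRight leaf376 sh) (Nat.ble 376 i)
noncomputable def s378_380 (i sh : Nat) : Nat := Bool.rec (Nat.shiftRight leaf378 sh) (Nat.shiftRight leaf379 sh) (Nat.ble 379 i)
noncomputable def s377_380 (i sh : Nat) : Nat := Bool.rec (Nat.shiftRight leaf377 sh) (s378_380 i sh) (Nat.ble 378 i)
noncomputable def s375_380 (i sh : Nat) : Nat := Bool.rec (s375_377 i sh) (s377_380 i sh) (Nat.ble 377 i)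
noncomputable def s370_380 (i sh : Nat) : Nat := Bool.rec (s370_375 i sh) (s375_380 i sh) (Nat.ble 375 i)
noncomputable def s365_380 (i sh : Nat) : Nat := Bool.rec (s365_370 i sh) (s370_380 i sh) (Nat.ble 370 i)
noncomputable def s357_380 (i sh : Nat) : Nat := Bool.rec (s357_365 i sh) (s365_380 i sh) (Nat.ble 365 i)
noncomputable def s381_383 (i sh : Nat) : Nat := Bool.rec (Nat.shiftRight leaf381 sh) (Nat.shiftRight leaf382 sh) (Nat.ble 382 i)
noncomputable def s380_383 (i sh : Nat) : Nat := Bool.rec (Nat.shiftRight leaf380 sh) (s381_383 i sh) (Nat.ble 381 i)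
noncomputable def s383_385 (i sh : Nat) : Nat := Bool.rec (Nat.shiftRight leaf383 sh) (Nat.shiftRight leaf384 sh) (Nat.ble 384 i)
noncomputable def s385_387 (i sh : Nat) : Nat := Bool.rec (Nat.shiftRight leaf385 sh) (Nat.shiftRight leaf386 sh) (Nat.ble 386 i)
noncomputable def s383_387 (i sh : Nat) : Nat := Bool.rec (s383_385 i sh) (s385_387 i sh) (Nat.ble 385 i)
noncomputable def s380_387 (i sh : Nat) : Nat := Bool.rec (s380_383 i sh) (s383_387 i sh) (Nat.ble 383 i)
noncomputable def s389_391 (i sh : Nat) : Nat := Bool.rec (Nat.shiftRight leaf389 sh) (Nat.shiftRight leaf390 sh) (Nat.ble 390 i)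
noncomputable def s388_391 (i sh : Nat) : Nat := Bool.rec (Nat.shiftRight leaf388 sh) (s389_391 i sh) (Nat.ble 389 i)
noncomputable def s388_392 (i sh : Nat) : Nat := Bool.rec (s388_391 i sh) (Nat.shiftRight leaf391 sh) (Nat.ble 391 i)
noncomputable def s392_394 (i sh : Nat) : Nat := Bool.rec (Nat.shiftRight leaf392 sh) (Nat.shiftRight leaf393 sh) (Nat.ble 393 i)
noncomputable def s392_395 (i sh : Nat) : Nat := Bool.rec (s392_394 i sh) (Nat.shiftRight leaf394 sh) (Nat.ble 394 i)
noncomputable def s388_395 (i sh : Nat) : Nat := Bool.rec (s388_392 i sh) (s392_395 i sh) (Nat.ble 392 i)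
noncomputable def s387_395 (i sh : Nat) : Nat := Bool.rec (Nat.shiftRight leaf387 sh) (s388_395 i sh) (Nat.ble 388 i)
noncomputable def s380_395 (i sh : Nat) : Nat := Bool.rec (s380_387 i sh) (s387_395 i sh) (Nat.ble 387 i)
noncomputable def s395_397 (i sh : Nat) : Nat := Bool.rec (Nat.shiftRight leaf395 sh) (Nat.shiftRight leaf396 sh) (Nat.ble 396 i)
noncomputable def s395_398 (i sh : Nat) : Nat := Bool.rec (s395_397 i sh) (Nat.shiftRight leaf397 sh) (Nat.ble 397 i)
noncomputable def s398_400 (i sh : Nat) : Nat := Bool.rec (Nat.shiftRight leaf398 sh) (Nat.shiftRight leaf399 sh) (Nat.ble 399 i)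
noncomputable def s398_401 (i sh : Nat) : Nat := Bool.rec (s398_400 i sh) (Nat.shiftRight leaf400 sh) (Nat.ble 400 i)
noncomputable def s395_401 (i sh : Nat) : Nat := Bool.rec (s395_398 i sh) (s398_401 i sh) (Nat.ble 398 i)
noncomputable def s402_404 (i sh : Nat) : Nat := Bool.rec (Nat.shiftRight leaf402 sh) (Nat.shiftRight leaf403 sh) (Nat.ble 403 i)
noncomputable def s401_404 (i sh : Nat) : Nat := Bool.rec (Nat.shiftRight leaf401 sh) (s402_404 i sh) (Nat.ble 402 i)
noncomputable def s404_406 (i sh : Nat) : Nat := Bool.rec (Nat.shiftRight leaf404 sh) (Nat.shiftRight leaf405 sh) (Nat.ble 405 i)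
noncomputable def s404_407 (i sh : Nat) : Nat := Bool.rec (s404_406 i sh) (Nat.shiftRight leaf406 sh) (Nat.ble 406 i)
noncomputable def s401_407 (i sh : Nat) : Nat := Bool.rec (s401_404 i sh) (s404_407 i sh) (Nat.ble 404 i)
noncomputable def s395_407 (i sh : Nat) : Nat := Bool.rec (s395_401 i sh) (s401_407 i sh) (Nat.ble 401 i)
noncomputable def s408_410 (i sh : Nat) : Nat := Bool.rec (Nat.shiftRight leaf408 sh) (Nat.shiftRight leaf409 sh) (Nat.ble 409 i)
noncomputable def s407_410 (i sh : Nat) : Nat := Bool.rec (Nat.shiftRight leaf407 sh) (s408_410 i sh) (Nat.ble 408 i)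
noncomputable def s410_412 (i sh : Nat) : Nat := Bool.rec (Nat.shiftRight leaf410 sh) (Nat.shiftRight leaf411 sh) (Nat.ble 411 i)
noncomputable def s407_412 (i sh : Nat) : Nat := Bool.rec (s407_410 i sh) (s410_412 i sh) (Nat.ble 410 i)
noncomputable def s395_412 (i sh : Nat) : Nat := Bool.rec (s395_407 i sh) (s407_412 i sh) (Nat.ble 407 i)
noncomputable def s380_412 (i sh : Nat) : Nat := Bool.rec (s380_395 i sh) (s395_412 i sh) (Nat.ble 395 i)
noncomputable def s357_412 (i sh : Nat) : Nat := Bool.rec (s357_380 i sh) (s380_412 i sh) (Nat.ble 380 i)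
noncomputable def s412_414 (i sh : Nat) : Nat := Bool.rec (Nat.shiftRight leaf412 sh) (Nat.shiftRight leaf413 sh) (Nat.ble 413 i)
noncomputable def s416_418 (i sh : Nat) : Nat := Bool.rec (Nat.shiftRight leaf416 sh) (Nat.shiftRight leaf417 sh) (Nat.ble 417 i)
noncomputable def s415_418 (i sh : Nat) : Nat := Bool.rec (Nat.shiftRight leaf415 sh) (s416_418 i sh) (Nat.ble 416 i)
noncomputable def s414_418 (i sh : Nat) : Nat := Bool.rec (Nat.shiftRight leaf414 sh) (s415_418 i sh) (Nat.ble 415 i)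
noncomputable def s412_418 (i sh : Nat) : Nat := Bool.rec (s412_414 i sh) (s414_418 i sh) (Nat.ble 414 i)
noncomputable def s419_421 (i sh : Nat) : Nat := Bool.rec (Nat.shiftRight leaf419 sh) (Nat.shiftRight leaf420 sh) (Nat.ble 420 i)
noncomputable def s421_423 (i sh : Nat) : Nat := Bool.rec (Nat.shiftRight leaf421 sh) (Nat.shiftRight leaf422 sh) (Nat.ble 422 i)
noncomputable def s419_423 (i sh : Nat) : Nat := Bool.rec (s419_421 i sh) (s421_423 i sh) (Nat.ble 421 i)
noncomputable def s418_423 (i sh : Nat) : Nat := Bool.rec (Nat.shiftRight leaf418 sh) (s419_423 i sh) (Nat.ble 419 i)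
noncomputable def s423_425 (i sh : Nat) : Nat := Bool.rec (Nat.shiftRight leaf423 sh) (Nat.shiftRight leaf424 sh) (Nat.ble 424 i)
noncomputable def s423_426 (i sh : Nat) : Nat := Bool.rec (s423_425 i sh) (Nat.shiftRight leaf425 sh) (Nat.ble 425 i)
noncomputable def s426_428 (i sh : Nat) : Nat := Bool.rec (Nat.shiftRight leaf426 sh) (Nat.shiftRight leaf427 sh) (Nat.ble 427 i)
noncomputable def s426_429 (i sh : Nat) : Nat := Bool.rec (s426_428 i sh) (Nat.shiftRight leaf428 sh) (Nat.ble 428 i)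
noncomputable def s423_429 (i sh : Nat) : Nat := Bool.rec (s423_426 i sh) (s426_429 i sh) (Nat.ble 426 i)
noncomputable def s418_429 (i sh : Nat) : Nat := Bool.rec (s418_423 i sh) (s423_429 i sh) (Nat.ble 423 i)
noncomputable def s412_429 (i sh : Nat) : Nat := Bool.rec (s412_418 i sh) (s418_429 i sh) (Nat.ble 418 i)
noncomputable def s430_432 (i sh : Nat) : Nat := Bool.rec (Nat.shiftRight leaf430 sh) (Nat.shiftRight leaf431 sh) (Nat.ble 431 i)
noncomputable def s433_435 (i sh : Nat) : Nat := Bool.rec (Nat.shiftRight leaf433 sh) (Nat.shiftRight leaf434 sh) (Nat.ble 434 i)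
noncomputable def s432_435 (i sh : Nat) : Nat := Bool.rec (Nat.shiftRight leaf432 sh) (s433_435 i sh) (Nat.ble 433 i)
noncomputable def s430_435 (i sh : Nat) : Nat := Bool.rec (s430_432 i sh) (s432_435 i sh) (Nat.ble 432 i)
noncomputable def s429_435 (i sh : Nat) : Nat := Bool.rec (Nat.shiftRight leaf429 sh) (s430_435 i sh) (Nat.ble 430 i)
noncomputable def s435_437 (i sh : Nat) : Nat := Bool.rec (Nat.shiftRight leaf435 sh) (Nat.shiftRight leaf436 sh) (Nat.ble 436 i)
noncomputable def s438_440 (i sh : Nat) : Nat := Bool.rec (Nat.shiftRight leaf438 sh) (Nat.shiftRight leaf439 sh) (Nat.ble 439 i)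
noncomputable def s437_440 (i sh : Nat) : Nat := Bool.rec (Nat.shiftRight leaf437 sh) (s438_440 i sh) (Nat.ble 438 i)
noncomputable def s435_440 (i sh : Nat) : Nat := Bool.rec (s435_437 i sh) (s437_440 i sh) (Nat.ble 437 i)
noncomputable def s441_443 (i sh : Nat) : Nat := Bool.rec (Nat.shiftRight leaf441 sh) (Nat.shiftRight leaf442 sh) (Nat.ble 442 i)
noncomputable def s441_444 (i sh : Nat) : Nat := Bool.rec (s441_443 i sh) (Nat.shiftRight leaf443 sh) (Nat.ble 443 i)
noncomputable def s440_444 (i sh : Nat) : Nat := Bool.rec (Nat.shiftRight leaf440 sh) (s441_444 i sh) (Nat.ble 441 i)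
noncomputable def s435_444 (i sh : Nat) : Nat := Bool.rec (s435_440 i sh) (s440_444 i sh) (Nat.ble 440 i)
noncomputable def s429_444 (i sh : Nat) : Nat := Bool.rec (s429_435 i sh) (s435_444 i sh) (Nat.ble 435 i)
noncomputable def s412_444 (i sh : Nat) : Nat := Bool.rec (s412_429 i sh) (s429_444 i sh) (Nat.ble 429 i)
noncomputable def s444_446 (i sh : Nat) : Nat := Bool.rec (Nat.shiftRight leaf444 sh) (Nat.shiftRight leaf445 sh) (Nat.ble 445 i)
noncomputable def s446_448 (i sh : Nat) : Nat := Bool.rec (Nat.shiftRight leaf446 sh) (Nat.shiftRight leaf447 sh) (Nat.ble 447 i)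
noncomputable def s444_448 (i sh : Nat) : Nat := Bool.rec (s444_446 i sh) (s446_448 i sh) (Nat.ble 446 i)
noncomputable def s444_449 (i sh : Nat) : Nat := Bool.rec (s444_448 i sh) (Nat.shiftRight leaf448 sh) (Nat.ble 448 i)
noncomputable def s449_451 (i sh : Nat) : Nat := Bool.rec (Nat.shiftRight leaf449 sh) (Nat.shiftRight leaf450 sh) (Nat.ble 450 i)
noncomputable def s444_451 (i sh : Nat) : Nat := Bool.rec (s444_449 i sh) (s449_451 i sh) (Nat.ble 449 i)
noncomputable def s451_453 (i sh : Nat) : Nat := Bool.rec (Nat.shiftRight leaf451 sh) (Nat.shiftRight leaf452 sh) (Nat.ble 452 i)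
noncomputable def s444_453 (i sh : Nat) : Nat := Bool.rec (s444_451 i sh) (s451_453 i sh) (Nat.ble 451 i)
noncomputable def s453_455 (i sh : Nat) : Nat := Bool.rec (Nat.shiftRight leaf453 sh) (Nat.shiftRight leaf454 sh) (Nat.ble 454 i)
noncomputable def s453_456 (i sh : Nat) : Nat := Bool.rec (s453_455 i sh) (Nat.shiftRight leaf455 sh) (Nat.ble 455 i)
noncomputable def s453_457 (i sh : Nat) : Nat := Bool.rec (s453_456 i sh) (Nat.shiftRight leaf456 sh) (Nat.ble 456 i)
noncomputable def s457_459 (i sh : Nat) : Nat := Bool.rec (Nat.shiftRight leaf457 sh) (Nat.shiftRight leaf458 sh) (Nat.ble 458 i)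
noncomputable def s459_461 (i sh : Nat) : Nat := Bool.rec (Nat.shiftRight leaf459 sh) (Nat.shiftRight leaf460 sh) (Nat.ble 460 i)
noncomputable def s457_461 (i sh : Nat) : Nat := Bool.rec (s457_459 i sh) (s459_461 i sh) (Nat.ble 459 i)
noncomputable def s453_461 (i sh : Nat) : Nat := Bool.rec (s453_457 i sh) (s457_461 i sh) (Nat.ble 457 i)
noncomputable def s461_463 (i sh : Nat) : Nat := Bool.rec (Nat.shiftRight leaf461 sh) (Nat.shiftRight leaf462 sh) (Nat.ble 462 i)
noncomputable def s463_465 (i sh : Nat) : Nat := Bool.rec (Nat.shiftRight leaf463 sh) (Nat.shiftRight leaf464 sh) (Nat.ble 464 i)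
noncomputable def s461_465 (i sh : Nat) : Nat := Bool.rec (s461_463 i sh) (s463_465 i sh) (Nat.ble 463 i)
noncomputable def s466_468 (i sh : Nat) : Nat := Bool.rec (Nat.shiftRight leaf466 sh) (Nat.shiftRight leaf467 sh) (Nat.ble 467 i)
noncomputable def s465_468 (i sh : Nat) : Nat := Bool.rec (Nat.shiftRight leaf465 sh) (s466_468 i sh) (Nat.ble 466 i)
noncomputable def s461_468 (i sh : Nat) : Nat := Bool.rec (s461_465 i sh) (s465_468 i sh) (Nat.ble 465 i)
noncomputable def s468_470 (i sh : Nat) : Nat := Bool.rec (Nat.shiftRight leaf468 sh) (Nat.shiftRight leaf469 sh) (Nat.ble 469 i)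
noncomputable def s470_472 (i sh : Nat) : Nat := Bool.rec (Nat.shiftRight leaf470 sh) (Nat.shiftRight leaf471 sh) (Nat.ble 471 i)
noncomputable def s468_472 (i sh : Nat) : Nat := Bool.rec (s468_470 i sh) (s470_472 i sh) (Nat.ble 470 i)
noncomputable def s461_472 (i sh : Nat) : Nat := Bool.rec (s461_468 i sh) (s468_472 i sh) (Nat.ble 468 i)
noncomputable def s453_472 (i sh : Nat) : Nat := Bool.rec (s453_461 i sh) (s461_472 i sh) (Nat.ble 461 i)
noncomputable def s444_472 (i sh : Nat) : Nat := Bool.rec (s444_453 i sh) (s453_472 i sh) (Nat.ble 453 i)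
noncomputable def s412_472 (i sh : Nat) : Nat := Bool.rec (s412_444 i sh) (s444_472 i sh) (Nat.ble 444 i)
noncomputable def s473_475 (i sh : Nat) : Nat := Bool.rec (Nat.shiftRight leaf473 sh) (Nat.shiftRight leaf474 sh) (Nat.ble 474 i)
noncomputable def s472_475 (i sh : Nat) : Nat := Bool.rec (Nat.shiftRight leaf472 sh) (s473_475 i sh) (Nat.ble 473 i)
noncomputable def s476_478 (i sh : Nat) : Nat := Bool.rec (Nat.shiftRight leaf476 sh) (Nat.shiftRight leaf477 sh) (Nat.ble 477 i)
noncomputable def s475_478 (i sh : Nat) : Nat := Bool.rec (Nat.shiftRight leaf475 sh) (s476_478 i sh) (Nat.ble 476 i)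
noncomputable def s472_478 (i sh : Nat) : Nat := Bool.rec (s472_475 i sh) (s475_478 i sh) (Nat.ble 475 i)
noncomputable def s478_480 (i sh : Nat) : Nat := Bool.rec (Nat.shiftRight leaf478 sh) (Nat.shiftRight leaf479 sh) (Nat.ble 479 i)
noncomputable def s480_482 (i sh : Nat) : Nat := Bool.rec (Nat.shiftRight leaf480 sh) (Nat.shiftRight leaf481 sh) (Nat.ble 481 i)
noncomputable def s478_482 (i sh : Nat) : Nat := Bool.rec (s478_480 i sh) (s480_482 i sh) (Nat.ble 480 i)
noncomputable def s483_485 (i sh : Nat) : Nat := Bool.rec (Nat.shiftRight leaf483 sh) (Nat.shiftRight leaf484 sh) (Nat.ble 484 i)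
noncomputable def s482_485 (i sh : Nat) : Nat := Bool.rec (Nat.shiftRight leaf482 sh) (s483_485 i sh) (Nat.ble 483 i)
noncomputable def s478_485 (i sh : Nat) : Nat := Bool.rec (s478_482 i sh) (s482_485 i sh) (Nat.ble 482 i)
noncomputable def s472_485 (i sh : Nat) : Nat := Bool.rec (s472_478 i sh) (s478_485 i sh) (Nat.ble 478 i)
noncomputable def s485_487 (i sh : Nat) : Nat := Bool.rec (Nat.shiftRight leaf485 sh) (Nat.shiftRight leaf486 sh) (Nat.ble 486 i)
noncomputable def s485_488 (i sh : Nat) : Nat := Bool.rec (s485_487 i sh) (Nat.shiftRight leaf487 sh) (Nat.ble 487 i)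
noncomputable def s488_490 (i sh : Nat) : Nat := Bool.rec (Nat.shiftRight leaf488 sh) (Nat.shiftRight leaf489 sh) (Nat.ble 489 i)
noncomputable def s485_490 (i sh : Nat) : Nat := Bool.rec (s485_488 i sh) (s488_490 i sh) (Nat.ble 488 i)
noncomputable def s490_492 (i sh : Nat) : Nat := Bool.rec (Nat.shiftRight leaf490 sh) (Nat.shiftRight leaf491 sh) (Nat.ble 491 i)
noncomputable def s490_493 (i sh : Nat) : Nat := Bool.rec (s490_492 i sh) (Nat.shiftRight leaf492 sh) (Nat.ble 492 i)
noncomputable def s490_494 (i sh : Nat) : Nat := Bool.rec (s490_493 i sh) (Nat.shiftRight leaf493 sh) (Nat.ble 493 i)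
noncomputable def s485_494 (i sh : Nat) : Nat := Bool.rec (s485_490 i sh) (s490_494 i sh) (Nat.ble 490 i)
noncomputable def s472_494 (i sh : Nat) : Nat := Bool.rec (s472_485 i sh) (s485_494 i sh) (Nat.ble 485 i)
noncomputable def s495_497 (i sh : Nat) : Nat := Bool.rec (Nat.shiftRight leaf495 sh) (Nat.shiftRight leaf496 sh) (Nat.ble 496 i)
noncomputable def s494_497 (i sh : Nat) : Nat := Bool.rec (Nat.shiftRight leaf494 sh) (s495_497 i sh) (Nat.ble 495 i)
noncomputable def s497_499 (i sh : Nat) : Nat := Bool.rec (Nat.shiftRight leaf497 sh) (Nat.shiftRight leaf498 sh) (Nat.ble 498 i)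
noncomputable def s494_499 (i sh : Nat) : Nat := Bool.rec (s494_497 i sh) (s497_499 i sh) (Nat.ble 497 i)
noncomputable def s499_501 (i sh : Nat) : Nat := Bool.rec (Nat.shiftRight leaf499 sh) (Nat.shiftRight leaf500 sh) (Nat.ble 500 i)
noncomputable def s501_503 (i sh : Nat) : Nat := Bool.rec (Nat.shiftRight leaf501 sh) (Nat.shiftRight leaf502 sh) (Nat.ble 502 i)
noncomputable def s499_503 (i sh : Nat) : Nat := Bool.rec (s499_501 i sh) (s501_503 i sh) (Nat.ble 501 i)
noncomputable def s494_503 (i sh : Nat) : Nat := Bool.rec (s494_499 i sh) (s499_503 i sh) (Nat.ble 499 i)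
noncomputable def s504_506 (i sh : Nat) : Nat := Bool.rec (Nat.shiftRight leaf504 sh) (Nat.shiftRight leaf505 sh) (Nat.ble 505 i)
noncomputable def s503_506 (i sh : Nat) : Nat := Bool.rec (Nat.shiftRight leaf503 sh) (s504_506 i sh) (Nat.ble 504 i)
noncomputable def s507_509 (i sh : Nat) : Nat := Bool.rec (Nat.shiftRight leaf507 sh) (Nat.shiftRight leaf508 sh) (Nat.ble 508 i)
noncomputable def s506_509 (i sh : Nat) : Nat := Bool.rec (Nat.shiftRight leaf506 sh) (s507_509 i sh) (Nat.ble 507 i)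
noncomputable def s503_509 (i sh : Nat) : Nat := Bool.rec (s503_506 i sh) (s506_509 i sh) (Nat.ble 506 i)
noncomputable def s509_511 (i sh : Nat) : Nat := Bool.rec (Nat.shiftRight leaf509 sh) (Nat.shiftRight leaf510 sh) (Nat.ble 510 i)
noncomputable def s511_513 (i sh : Nat) : Nat := Bool.rec (Nat.shiftRight leaf511 sh) (Nat.shiftRight leaf512 sh) (Nat.ble 512 i)
noncomputable def s511_514 (i sh : Nat) : Nat := Bool.rec (s511_513 i sh) (Nat.shiftRight leaf513 sh) (Nat.ble 513 i)
noncomputable def s509_514 (i sh : Nat) : Nat := Bool.rec (s509_511 i sh) (s511_514 i sh) (Nat.ble 511 i)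
noncomputable def s503_514 (i sh : Nat) : Nat := Bool.rec (s503_509 i sh) (s509_514 i sh) (Nat.ble 509 i)
noncomputable def s494_514 (i sh : Nat) : Nat := Bool.rec (s494_503 i sh) (s503_514 i sh) (Nat.ble 503 i)
noncomputable def s472_514 (i sh : Nat) : Nat := Bool.rec (s472_494 i sh) (s494_514 i sh) (Nat.ble 494 i)
noncomputable def s514_516 (i sh : Nat) : Nat := Bool.rec (Nat.shiftRight leaf514 sh) (Nat.shiftRight leaf515 sh) (Nat.ble 515 i)
noncomputable def s514_517 (i sh : Nat) : Nat := Bool.rec (s514_516 i sh) (Nat.shiftRight leaf516 sh) (Nat.ble 516 i)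
noncomputable def s514_518 (i sh : Nat) : Nat := Bool.rec (s514_517 i sh) (Nat.shiftRight leaf517 sh) (Nat.ble 517 i)
noncomputable def s518_520 (i sh : Nat) : Nat := Bool.rec (Nat.shiftRight leaf518 sh) (Nat.shiftRight leaf519 sh) (Nat.ble 519 i)
noncomputable def s520_522 (i sh : Nat) : Nat := Bool.rec (Nat.shiftRight leaf520 sh) (Nat.shiftRight leaf521 sh) (Nat.ble 521 i)
noncomputable def s520_523 (i sh : Nat) : Nat := Bool.rec (s520_522 i sh) (Nat.shiftRight leaf522 sh) (Nat.ble 522 i)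
noncomputable def s518_523 (i sh : Nat) : Nat := Bool.rec (s518_520 i sh) (s520_523 i sh) (Nat.ble 520 i)
noncomputable def s514_523 (i sh : Nat) : Nat := Bool.rec (s514_518 i sh) (s518_523 i sh) (Nat.ble 518 i)
noncomputable def s523_525 (i sh : Nat) : Nat := Bool.rec (Nat.shiftRight leaf523 sh) (Nat.shiftRight leaf524 sh) (Nat.ble 524 i)
noncomputable def s523_526 (i sh : Nat) : Nat := Bool.rec (s523_525 i sh) (Nat.shiftRight leaf525 sh) (Nat.ble 525 i)
noncomputable def s526_528 (i sh : Nat) : Nat := Bool.rec (Nat.shiftRight leaf526 sh) (Nat.shiftRight leaf527 sh) (Nat.ble 527 i)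
noncomputable def s523_528 (i sh : Nat) : Nat := Bool.rec (s523_526 i sh) (s526_528 i sh) (Nat.ble 526 i)
noncomputable def s528_530 (i sh : Nat) : Nat := Bool.rec (Nat.shiftRight leaf528 sh) (Nat.shiftRight leaf529 sh) (Nat.ble 529 i)
noncomputable def s523_530 (i sh : Nat) : Nat := Bool.rec (s523_528 i sh) (s528_530 i sh) (Nat.ble 528 i)
noncomputable def s514_530 (i sh : Nat) : Nat := Bool.rec (s514_523 i sh) (s523_530 i sh) (Nat.ble 523 i)
noncomputable def s530_532 (i sh : Nat) : Nat := Bool.rec (Nat.shiftRight leaf530 sh) (Nat.shiftRight leaf531 sh) (Nat.ble 531 i)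
noncomputable def s532_534 (i sh : Nat) : Nat := Bool.rec (Nat.shiftRight leaf532 sh) (Nat.shiftRight leaf533 sh) (Nat.ble 533 i)
noncomputable def s530_534 (i sh : Nat) : Nat := Bool.rec (s530_532 i sh) (s532_534 i sh) (Nat.ble 532 i)
noncomputable def s535_537 (i sh : Nat) : Nat := Bool.rec (Nat.shiftRight leaf535 sh) (Nat.shiftRight leaf536 sh) (Nat.ble 536 i)
noncomputable def s534_537 (i sh : Nat) : Nat := Bool.rec (Nat.shiftRight leaf534 sh) (s535_537 i sh) (Nat.ble 535 i)
noncomputable def s537_539 (i sh : Nat) : Nat := Bool.rec (Nat.shiftRight leaf537 sh) (Nat.shiftRight leaf538 sh) (Nat.ble 538 i)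
noncomputable def s537_540 (i sh : Nat) : Nat := Bool.rec (s537_539 i sh) (Nat.shiftRight leaf539 sh) (Nat.ble 539 i)
noncomputable def s534_540 (i sh : Nat) : Nat := Bool.rec (s534_537 i sh) (s537_540 i sh) (Nat.ble 537 i)
noncomputable def s530_540 (i sh : Nat) : Nat := Bool.rec (s530_534 i sh) (s534_540 i sh) (Nat.ble 534 i)
noncomputable def s543_545 (i sh : Nat) : Nat := Bool.rec (Nat.shiftRight leaf543 sh) (Nat.shiftRight leaf544 sh) (Nat.ble 544 i)
noncomputable def s542_545 (i sh : Nat) : Nat := Bool.rec (Nat.shiftRight leaf542 sh) (s543_545 i sh) (Nat.ble 543 i)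
noncomputable def s541_545 (i sh : Nat) : Nat := Bool.rec (Nat.shiftRight leaf541 sh) (s542_545 i sh) (Nat.ble 542 i)
noncomputable def s540_545 (i sh : Nat) : Nat := Bool.rec (Nat.shiftRight leaf540 sh) (s541_545 i sh) (Nat.ble 541 i)
noncomputable def s530_545 (i sh : Nat) : Nat := Bool.rec (s530_540 i sh) (s540_545 i sh) (Nat.ble 540 i)
noncomputable def s514_545 (i sh : Nat) : Nat := Bool.rec (s514_530 i sh) (s530_545 i sh) (Nat.ble 530 i)
noncomputable def s472_545 (i sh : Nat) : Nat := Bool.rec (s472_514 i sh) (s514_545 i sh) (Nat.ble 514 i)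
noncomputable def s412_545 (i sh : Nat) : Nat := Bool.rec (s412_472 i sh) (s472_545 i sh) (Nat.ble 472 i)
noncomputable def s357_545 (i sh : Nat) : Nat := Bool.rec (s357_412 i sh) (s412_545 i sh) (Nat.ble 412 i)
noncomputable def s40_545 (i sh : Nat) : Nat := Bool.rec (s40_357 i sh) (s357_545 i sh) (Nat.ble 357 i)
noncomputable def s0_545 (i sh : Nat) : Nat := Bool.rec (s0_40 i sh) (s40_545 i sh) (Nat.ble 40 i)

noncomputable def sel (i sh : Nat) : Nat :=
  s0_545 i sh

noncomputable def cls (id : Nat) : Nat :=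
  Nat.land (sel (Nat.shiftRight id 6) (Nat.mul (Nat.land id 63) 370)) 2404907604760405225358828131112281116032698930082119547604265954848982041717359046106827774346003151904701415423

def sp : Spec := ⟨18, 6, 12, false, 12, false, 13, 13, 0, 11, 153⟩

end Vale.Agent.P048.Sat.PSL6
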