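import Vale.Agent.P048.Sat.TurboGraph
import Vale.Agent.P048.Sat.PSL6.In0
import Vale.Agent.P048.Sat.PSL6.In1
import Vale.Agent.P048.Sat.PSL6.In2
import Vale.Agent.P048.Sat.PSL6.In3
import Vale.Agent.P048.Sat.PSL6.In4
import Vale.Agent.P048.Sat.PSL6.In5
import Vale.Agent.P048.Sat.PSL6.In6
import Vale.Agent.P048.Sat.PSL6.In7
import Vale.Agent.P048.Sat.PSL6.In8
import Vale.Agent.P048.Sat.PSL6.In9
import Vale.Agent.P048.Sat.PSL6.In10
import Vale.Agent.P048.Sat.PSL6.Pf0

namespace Vale.Agent.P048.Sat.PSL6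

open Vale.Agent.P048.Sat Vale.Agent.P048.Sat.Turbo

theorem unsat (A : ℕ → ℕ → Prop) (hA : Model sp A) (hL : Turbo.LexNb sp A) : False := by
  have hL2 : true = true → Turbo.LexNb sp A := fun _ => hL
  have h0 : ∀ j, j < 0 → Turbo.CSat (Turbo.tauL sp A) (cls j) := fun j hj => absurd hj (Nat.not_lt_zero j)
  have h1 := Turbo.checkIn_sound hA hL2 in0 h0
  have h2 := Turbo.checkIn_sound hA hL2 in1 h1
  have h3 := Turbo.checkIn_sound hA hL2 in2 h2
  have h4 := Turbo.checkIn_sound hA hL2 in3 h3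
  have h5 := Turbo.checkIn_sound hA hL2 in4 h4
  have h6 := Turbo.checkIn_sound hA hL2 in5 h5
  have h7 := Turbo.checkIn_sound hA hL2 in6 h6
  have h8 := Turbo.checkIn_sound hA hL2 in7 h7
  have h9 := Turbo.checkIn_sound hA hL2 in8 h8
  have h10 := Turbo.checkIn_sound hA hL2 in9 h9
  have h11 := Turbo.checkIn_sound hA hL2 in10 h10
  have h12 := Turbo.checkIn_sound hA hL2 in11 h11
  have h13 := Turbo.checkIn_sound hA hL2 in12 h12
  have h14 := Turbo.checkIn_sound hA hL2 in13 h13
  have h15 := Turbo.checkIn_sound hA hL2 in14 h14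
  have h16 := Turbo.checkIn_sound hA hL2 in15 h15
  have h17 := Turbo.checkIn_sound hA hL2 in16 h16
  have h18 := Turbo.checkIn_sound hA hL2 in17 h17
  have h19 := Turbo.checkIn_sound hA hL2 in18 h18
  have h20 := Turbo.checkIn_sound hA hL2 in19 h19
  have h21 := Turbo.checkIn_sound hA hL2 in20 h20
  have h22 := Turbo.checkIn_sound hA hL2 in21 h21
  have h23 := Turbo.checkIn_sound hA hL2 in22 h22
  have h24 := Turbo.checkIn_sound hA hL2 in23 h23
  have h25 := Turbo.checkIn_sound hA hL2 in24 h24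
  have h26 := Turbo.checkIn_sound hA hL2 in25 h25
  have h27 := Turbo.checkIn_sound hA hL2 in26 h26
  have h28 := Turbo.checkIn_sound hA hL2 in27 h27
  have h29 := Turbo.checkIn_sound hA hL2 in28 h28
  have h30 := Turbo.checkIn_sound hA hL2 in29 h29
  have h31 := Turbo.checkIn_sound hA hL2 in30 h30
  have h32 := Turbo.checkIn_sound hA hL2 in31 h31
  have h33 := Turbo.checkIn_sound hA hL2 in32 h32
  have h34 := Turbo.checkIn_sound hA hL2 in33 h33
  have h35 := Turbo.checkIn_sound hA hL2 in34 h34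
  have h36 := Turbo.checkIn_sound hA hL2 in35 h35
  have h37 := Turbo.checkIn_sound hA hL2 in36 h36
  have h38 := Turbo.checkIn_sound hA hL2 in37 h37
  have h39 := Turbo.checkIn_sound hA hL2 in38 h38
  have h40 := Turbo.checkIn_sound hA hL2 in39 h39
  have h41 := Turbo.checkIn_sound hA hL2 in40 h40
  have h42 := Turbo.checkIn_sound hA hL2 in41 h41
  have h43 := Turbo.checkIn_sound hA hL2 in42 h42
  have h44 := Turbo.checkIn_sound hA hL2 in43 h43
  have h45 := Turbo.checkIn_sound hA hL2 in44 h44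
  have h46 := Turbo.checkIn_sound hA hL2 in45 h45
  have h47 := Turbo.checkIn_sound hA hL2 in46 h46
  have h48 := Turbo.checkIn_sound hA hL2 in47 h47
  have h49 := Turbo.checkIn_sound hA hL2 in48 h48
  have h50 := Turbo.checkIn_sound hA hL2 in49 h49
  have h51 := Turbo.checkIn_sound hA hL2 in50 h50
  have h52 := Turbo.checkIn_sound hA hL2 in51 h51
  have h53 := Turbo.checkIn_sound hA hL2 in52 h52
  have h54 := Turbo.checkIn_sound hA hL2 in53 h53
  have h55 := Turbo.checkIn_sound hA hL2 in54 h54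
  have h56 := Turbo.checkIn_sound hA hL2 in55 h55
  have h57 := Turbo.checkIn_sound hA hL2 in56 h56
  have h58 := Turbo.checkIn_sound hA hL2 in57 h57
  have h59 := Turbo.checkIn_sound hA hL2 in58 h58
  have h60 := Turbo.checkIn_sound hA hL2 in59 h59
  have h61 := Turbo.checkIn_sound hA hL2 in60 h60
  have h62 := Turbo.checkIn_sound hA hL2 in61 h61
  have h63 := Turbo.checkIn_sound hA hL2 in62 h62
  have h64 := Turbo.checkIn_sound hA hL2 in63 h63
  have h65 := Turbo.checkIn_sound hA hL2 in64 h64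
  have h66 := Turbo.checkIn_sound hA hL2 in65 h65
  have h67 := Turbo.checkIn_sound hA hL2 in66 h66
  have h68 := Turbo.checkIn_sound hA hL2 in67 h67
  have h69 := Turbo.checkIn_sound hA hL2 in68 h68
  have h70 := Turbo.checkIn_sound hA hL2 in69 h69
  have h71 := Turbo.checkIn_sound hA hL2 in70 h70
  have h72 := Turbo.checkIn_sound hA hL2 in71 h71
  have h73 := Turbo.checkIn_sound hA hL2 in72 h72
  have h74 := Turbo.checkIn_sound hA hL2 in73 h73
  have h75 := Turbo.checkIn_sound hA hL2 in74 h74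
  have h76 := Turbo.checkIn_sound hA hL2 in75 h75
  have h77 := Turbo.checkIn_sound hA hL2 in76 h76
  have h78 := Turbo.checkIn_sound hA hL2 in77 h77
  have h79 := Turbo.checkIn_sound hA hL2 in78 h78
  have h80 := Turbo.checkIn_sound hA hL2 in79 h79
  have h81 := Turbo.checkIn_sound hA hL2 in80 h80
  have h82 := Turbo.checkIn_sound hA hL2 in81 h81
  have h83 := Turbo.checkIn_sound hA hL2 in82 h82
  have h84 := Turbo.checkIn_sound hA hL2 in83 h83
  have h85 := Turbo.checkIn_sound hA hL2 in84 h84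
  have h86 := Turbo.checkIn_sound hA hL2 in85 h85
  have h87 := Turbo.checkIn_sound hA hL2 in86 h86
  have h88 := Turbo.checkRange_sound pf0 h87
  have h89 := Turbo.checkRange_sound pf1 h88
  have h90 := Turbo.checkRange_sound pf2 h89
  have h91 := Turbo.checkRange_sound pf3 h90
  have h92 := Turbo.checkRange_sound pf4 h91
  have h93 := Turbo.checkRange_sound pf5 h92
  have h94 := Turbo.checkRange_sound pf6 h93
  have h95 := Turbo.checkRange_sound pf7 h94
  exact Turbo.not_sat_of_shr (c := cls 34860) (by decide +kernel) (h95 34860 (by norm_num))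

end Vale.Agent.P048.Sat.PSL6
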